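import Vale.Agent.P040.AlgB

namespace Vale.Agent.P040.Alg

open Finset Module

/-- Evaluation at a finite set of pairs of nodes. -/
def evs {n : ℕ} (p q : ℕ) (S : Finset (Fin n × Fin n)) : (Fin p × Fin q → ℝ) →ₗ[ℝ] (S → ℝ) :=
  LinearMap.pi fun x : S => ev p q (z x.1.1) (z x.1.2)

lemma evs_apply {n : ℕ} (p q : ℕ) (S : Finset (Fin n × Fin n)) (v : Fin p × Fin q → ℝ) (x : S) :
    evs p q S v x = ev p q (z x.1.1) (z x.1.2) v := rfl

lemma beta_pair {n : ℕ} (p q : ℕ) (χ : Fin n → Fin n → ℝ) (v : Fin p × Fin q → ℝ)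
    (w : Fin q × Fin p → ℝ) : ∑ e, w e * beta p q χ v e =
      ∑ i, ∑ j, χ i j * ((z i - z j) * nu i * nu j) * ev p q (z i) (z j) v *
        ev q p (z i) (z j) w := by
  simp only [beta_apply, ev_apply q p, mul_sum]
  rw [sum_comm]
  refine sum_congr rfl fun i _ => ?_
  rw [sum_comm]
  exact sum_congr rfl fun j _ => sum_congr rfl fun e _ => by ring

lemma nondeg_of {n p q : ℕ} (S : Finset (Fin n × Fin n)) (hS : S.card ≤ q * p)
    (χ : Fin n → Fin n → ℝ) (h0 : ∀ i j, (i, j) ∉ S → χ i j = 0)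
    (h1 : ∀ i j, (i, j) ∈ S → χ i j ≠ 0 ∧ i ≠ j)
    (hp : ∀ v : Fin p × Fin q → ℝ, (∀ i j, (i, j) ∈ S → ev p q (z i) (z j) v = 0) → v = 0)
    (hq : ∀ v : Fin q × Fin p → ℝ, (∀ i j, (i, j) ∈ S → ev q p (z i) (z j) v = 0) → v = 0)
    (v : Fin p × Fin q → ℝ) (hv : beta p q χ v = 0) : v = 0 := by
  classical
  have hinj : Function.Injective (evs q p S) := by
    rw [injective_iff_map_eq_zero]
    intro w hw
    exact hq w fun i j hij => congrFun hw ⟨(i, j), hij⟩
  have hle := LinearMap.finrank_le_finrank_of_injective hinj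
  have hsurj : Function.Surjective (evs q p S) := by
    refine (LinearMap.injective_iff_surjective_of_finrank_eq_finrank ?_).mp hinj
    refine le_antisymm hle ?_
    simpa using hS
  set c : Fin n → Fin n → ℝ := fun i j =>
    χ i j * ((z i - z j) * nu i * nu j) * ev p q (z i) (z j) v with hc
  obtain ⟨w, hw⟩ := hsurj fun x => c x.1.1 x.1.2
  have hsum := beta_pair p q χ v w
  rw [hv] at hsum
  have hsq : ∑ i, ∑ j, c i j ^ 2 = 0 := by
    refine Eq.trans ?_ (hsum.symm.trans (by simp))
    refine sum_congr rfl fun i _ => sum_congr rfl fun j _ => ?_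
    by_cases hij : (i, j) ∈ S
    · have : ev q p (z i) (z j) w = c i j := congrFun hw ⟨(i, j), hij⟩
      rw [this, sq]
    · simp [hc, h0 i j hij]
  apply hp
  intro i j hij
  have h2 := (sum_eq_zero_iff_of_nonneg fun i _ => sum_nonneg fun j _ => sq_nonneg (c i j)).mp hsq
    i (mem_univ _)
  have h3 := (sum_eq_zero_iff_of_nonneg fun j _ => sq_nonneg (c i j)).mp h2 j (mem_univ _)
  have h4 : c i j = 0 := pow_eq_zero_iff (two_ne_zero) |>.mp h3
  have h5 : z i - z j ≠ 0 := sub_ne_zero.mpr fun h => (h1 i j hij).2 (z_inj h)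
  exact (mul_eq_zero.mp h4).resolve_left
    (mul_ne_zero (h1 i j hij).1 (mul_ne_zero (mul_ne_zero h5 (nu_ne i)) (nu_ne j)))

lemma exists_down {n : ℕ} (α : Fin n → ℝ) (hα : Function.Injective α) (s : ℕ) (hs : s ≤ n) :
    ∃ I : Finset (Fin n), I.card = s ∧ ∀ i ∈ I, ∀ j, j ∉ I → α i < α j := by
  induction s with
  | zero => exact ⟨∅, rfl, by simp⟩
  | succ s ih =>
    obtain ⟨I, hI, h⟩ := ih (by omega)
    have hne : (Iᶜ).Nonempty := by
      rw [← card_pos, card_compl, Fintype.card_fin]; omega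
    obtain ⟨x, hx, hmin⟩ := (Iᶜ).exists_min_image α hne
    refine ⟨insert x I, by rw [card_insert_of_notMem (mem_compl.mp hx), hI], fun i hi j hj => ?_⟩
    rw [mem_insert, not_or] at hj
    rcases mem_insert.mp hi with rfl | hi
    · exact lt_of_le_of_ne (hmin j (mem_compl.mpr hj.2)) fun he => hj.1 (hα he).symm
    · exact h i hi j hj.2

lemma card_lt_pairs {n : ℕ} (I : Finset (Fin n)) (g : Fin n → ℝ) :
    2 * ((I ×ˢ I).filter fun x => g x.1 < g x.2).card + I.card ≤ I.card * I.card := by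
  classical
  set L := (I ×ˢ I).filter fun x => g x.1 < g x.2 with hL
  have h1 : (L.image Prod.swap).card = L.card := card_image_of_injective _ Prod.swap_injective
  have h2 : Disjoint L (L.image Prod.swap) := by
    rw [disjoint_left]
    intro x hx hx'
    obtain ⟨y, hy, rfl⟩ := mem_image.mp hx'
    have a := (mem_filter.mp hx).2
    have b := (mem_filter.mp hy).2
    simp only [Prod.fst_swap, Prod.snd_swap] at a
    linarith
  have h3 : L ∪ L.image Prod.swap ⊆ I.offDiag := by
    intro x hx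
    rcases mem_union.mp hx with hx | hx
    · obtain ⟨a, b⟩ := mem_filter.mp hx
      exact mem_offDiag.mpr ⟨(mem_product.mp a).1, (mem_product.mp a).2,
        fun he => by rw [he] at b; exact lt_irrefl _ b⟩
    · obtain ⟨y, hy, rfl⟩ := mem_image.mp hx
      obtain ⟨a, b⟩ := mem_filter.mp hy
      exact mem_offDiag.mpr ⟨(mem_product.mp a).2, (mem_product.mp a).1,
        fun he => by
          simp only [Prod.fst_swap, Prod.snd_swap] at he
          rw [he] at b; exact lt_irrefl _ b⟩
  have h4 := card_le_card h3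
  rw [card_union_of_disjoint h2, h1, offDiag_card] at h4
  have h5 : I.card ≤ I.card * I.card := Nat.le_mul_self _
  omega

theorem nondeg {n p q : ℕ} (hn : p + q + 1 = n) (hpq : q = p ∨ q = p + 1) (α : Fin n → ℝ)
    (hα : Function.Injective α) (v : Fin p × Fin q → ℝ)
    (hv : beta p q (fun i j => if α i < α j then 1 else 0) v = 0) : v = 0 := by
  classical
  obtain ⟨I, hI, hd⟩ := exists_down α hα q (by omega)
  set g : Fin n → ℝ := fun i => if i ∈ I then -α i else α i with hg
  have g1 : Set.InjOn g I := fun i hi j hj h => by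
    have hi' : i ∈ I := hi
    have hj' : j ∈ I := hj
    simp only [hg, hi', hj', if_true] at h
    exact hα (neg_injective h)
  have g2 : Set.InjOn g (Iᶜ : Finset (Fin n)) := fun i hi j hj h => by
    have hi' : i ∉ I := mem_compl.mp hi
    have hj' : j ∉ I := mem_compl.mp hj
    simp only [hg, hi', hj', if_false] at h
    exact hα h
  set S : Finset (Fin n × Fin n) :=
    ((I ×ˢ I).filter fun x => g x.1 < g x.2) ∪ ((Iᶜ ×ˢ Iᶜ).filter fun x => g x.1 < g x.2) with hS
  have hmem : ∀ i j, (i, j) ∈ S ↔ (i ∈ I ↔ j ∈ I) ∧ g i < g j := fun i j => by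
    simp only [hS, mem_union, mem_filter, mem_product, mem_compl]
    tauto
  have hcard : S.card ≤ q * p := by
    have a := card_lt_pairs I g
    have b := card_lt_pairs Iᶜ g
    have c := card_union_le ((I ×ˢ I).filter fun x => g x.1 < g x.2)
      ((Iᶜ ×ˢ Iᶜ).filter fun x => g x.1 < g x.2)
    have e : (Iᶜ).card = p + 1 := by rw [card_compl, Fintype.card_fin]; omega
    rw [e] at b
    rw [hI] at a
    rcases hpq with rfl | rfl <;> nlinarith
  refine nondeg_of S hcard (fun i j => if (i, j) ∈ S then (if i ∈ I then -1 else 1) else 0)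
    (fun i j h => if_neg h) (fun i j h => ⟨?_, ?_⟩) (fun w hw => ?_) (fun w hw => ?_) v ?_
  · simp only [h, if_true]
    split_ifs <;> norm_num
  · rintro rfl
    exact lt_irrefl _ ((hmem i i).mp h).2
  · exact ev_poised hn I g g1 g2 w fun i j a b => hw i j ((hmem i j).mpr ⟨a, b⟩)
  · exact ev_poised (by omega) I g g1 g2 w fun i j a b => hw i j ((hmem i j).mpr ⟨a, b⟩)
  · rw [← hv]
    refine (beta_gauge hn _ _ (fun i => if i ∈ I then 1 else 0) 0 v fun i j hij => Or.inr ?_).symm
    have hne : α i ≠ α j := fun h => hij (hα h)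
    simp only [hmem, hg, Pi.zero_apply, add_zero]
    by_cases hi : i ∈ I <;> by_cases hj : j ∈ I
    · simp only [hi, hj, if_true, iff_self, true_and, neg_lt_neg_iff]
      rcases lt_or_gt_of_ne hne with h | h
      · simp [h, h.not_gt]
      · simp [h, h.not_gt]
    · simp [hi, hj, hd i hi j hj]
    · simp [hi, hj, (hd j hj i hi).not_gt]
    · simp [hi, hj]

end Vale.Agent.P040.Alg
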