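import Vale.Agent.P040.Seg

namespace Vale.Agent.P040

open Classical in
/-- The combinatorial data of a drawing cut at all crossing points. -/
structure Plan (m n : ℕ) (S : Type) where
  A : Fin m → ℂ
  B : Fin n → ℂ
  Cr : Finset ℂ
  A_inj : Function.Injective A
  B_inj : Function.Injective B
  A_ne_B : ∀ i j, A i ≠ B j
  A_nm : ∀ i, A i ∉ Cr
  B_nm : ∀ j, B j ∉ Cr
  ed : S → Fin m × Fin n
  ini : Fin m × Fin n → S
  ter : Fin m × Fin n → S
  nx : S → S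
  nd : S → Bool → ℂ
  al : S → Bool → ℝ
  th : S → ℂ → ℝ
  ed_ini : ∀ e, ed (ini e) = e
  ed_ter : ∀ e, ed (ter e) = e
  ed_nx : ∀ μ, ed (nx μ) = ed μ
  nx_inj : Function.Injective nx
  nx_ter : ∀ e, nx (ter e) = ini e
  nd_ini : ∀ e, nd (ini e) false = A e.1
  nd_ter : ∀ e, nd (ter e) true = B e.2
  nd_nx : ∀ μ, μ ≠ ter (ed μ) → nd (nx μ) false = nd μ true
  nd_mem : ∀ μ, μ ≠ ter (ed μ) → nd μ true ∈ Cr
  nd_ne : ∀ μ, nd μ false ≠ nd μ true
  par : ∀ μ, μ ≠ ter (ed μ) → ∃ ν, ν ≠ μ ∧ nd ν true = nd μ true ∧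
    ∀ ρ, nd ρ true = nd μ true → ρ = μ ∨ ρ = ν
  al_ne : ∀ μ ν b b', μ ≠ ν → nd μ b = nd ν b' → al μ b ≠ al ν b'
  formula : ∀ μ ν, μ ≠ ν →
    th μ (nd ν true) - th μ (nd ν false) - th ν (nd μ true) + th ν (nd μ false) =
      ∑ b : Bool, ∑ b' : Bool,
        if nd μ b = nd ν b' then sg b * sg b' * psi (al μ b) (al ν b') else 0

/-- The input of the algebraic part. -/
structure Data (m n c : ℕ) where
  T : Fin m → Fin n → Fin n → ℝ
  Bad : Fin m → Fin m → Finset (Fin n × Fin n)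
  cross : ∀ a b, a ≠ b → ∃ r k : Fin n → ℝ, ∀ i j, i ≠ j → (i, j) ∉ Bad a b →
    T a i j - T b j i = r i + k j
  star : ∀ a, ∃ α r k : Fin n → ℝ, Function.Injective α ∧ ∀ i j, i ≠ j →
    T a i j - T a j i = (if α i < α j then 1 else 0) + r i + k j
  count : ∑ a, ∑ b, (Bad a b).card ≤ 2 * c

end Vale.Agent.P040
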