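import Vale.Agent.P040.SubA

namespace Vale.Agent.P040

open Module

namespace Sub

open Polynomial Finset

/-- Lagrange basis polynomial at the nodes `0, …, m-1`. -/
noncomputable def lg {m : ℕ} (a : Fin m) : ℝ[X] :=
  Lagrange.basis univ (fun i : Fin m => ((i : ℕ) : ℝ)) a

lemma node_inj {m : ℕ} : Function.Injective fun i : Fin m => ((i : ℕ) : ℝ) := fun _ _ h =>
  Fin.ext (Nat.cast_injective (R := ℝ) h)

lemma lg_eval {m : ℕ} (a b : Fin m) : (lg a).eval ((b : ℕ) : ℝ) = if a = b then 1 else 0 := by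
  split_ifs with h
  · subst h; exact Lagrange.eval_basis_self node_inj.injOn (mem_univ _)
  · exact Lagrange.eval_basis_of_ne (v := fun i : Fin m => ((i : ℕ) : ℝ)) h (mem_univ _)

lemma lg_deg {m : ℕ} (a : Fin m) : (lg a).degree < m := by
  rw [lg, Lagrange.degree_basis node_inj.injOn (mem_univ _), card_univ, Fintype.card_fin]
  have := a.pos
  exact_mod_cast (by omega : m - 1 < m)

lemma lg_Deg {m : ℕ} (a b : Fin m) : Deg m (C (lg a) * (lg b).map C) := by
  refine ⟨?_, fun k => ?_⟩
  · rw [← smul_eq_C_mul]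
    exact (degree_smul_le _ _).trans_lt (degree_map_le.trans_lt (lg_deg b))
  · rw [coeff_C_mul, coeff_map, mul_comm, ← smul_eq_C_mul]
    exact (degree_smul_le _ _).trans_lt (lg_deg a)

/-- Interpolation. -/
noncomputable def itp {W : Type} [AddCommGroup W] [Module ℝ W] {m : ℕ} :
    (Fin m → Fin m → W) →ₗ[ℝ] (Dual ℝ W →ₗ[ℝ] Polynomial (Polynomial ℝ)) where
  toFun w :=
    { toFun := fun φ => ∑ a, ∑ b, φ (w a b) • (C (lg a) * (lg b).map C)
      map_add' := fun φ ψ => by simp [add_smul, sum_add_distrib]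
      map_smul' := fun c φ => by simp [smul_sum, mul_smul] }
  map_add' v w := by
    refine LinearMap.ext fun φ => ?_
    simp [add_smul, sum_add_distrib]
  map_smul' c v := by
    refine LinearMap.ext fun φ => ?_
    simp [smul_sum, mul_smul]

lemma itp_apply {W : Type} [AddCommGroup W] [Module ℝ W] {m : ℕ} (w : Fin m → Fin m → W)
    (φ : Dual ℝ W) : itp w φ = ∑ a, ∑ b, φ (w a b) • (C (lg a) * (lg b).map C) := rfl

lemma itp_map {W : Type} [AddCommGroup W] [Module ℝ W] {m : ℕ} (w : Fin m → Fin m → W)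
    (φ : Dual ℝ W) (c : Fin m) :
    (itp w φ).map (evalRingHom ((c : ℕ) : ℝ)) = ∑ b, φ (w c b) • lg b := by
  have h : ∀ (x : ℝ) (f : ℝ[X]), (f.map C).map (evalRingHom x) = f := fun x f => by
    rw [Polynomial.map_map]
    ext k
    simp
  rw [itp_apply, Polynomial.map_sum, sum_eq_single c]
  · rw [Polynomial.map_sum]
    refine sum_congr rfl fun b _ => ?_
    rw [Algebra.smul_def, Polynomial.map_mul, Polynomial.map_mul, h, map_C, coe_evalRingHom,
      lg_eval, if_pos rfl, smul_eq_C_mul]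
    simp
  · intro a _ hac
    rw [Polynomial.map_sum]
    refine sum_eq_zero fun b _ => ?_
    rw [Algebra.smul_def, Polynomial.map_mul, Polynomial.map_mul, map_C, coe_evalRingHom,
      lg_eval, if_neg hac]
    simp
  · simp

lemma itp_eval {W : Type} [AddCommGroup W] [Module ℝ W] {m : ℕ} (w : Fin m → Fin m → W)
    (φ : Dual ℝ W) (c : Fin m) :
    (itp w φ).eval (C ((c : ℕ) : ℝ)) = ∑ a, φ (w a c) • lg a := by
  have h : ∀ (x : ℝ) (f : ℝ[X]), (f.map C).eval (C x) = C (f.eval x) := fun x f => by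
    rw [eval_map, eval₂_at_apply]
  rw [itp_apply, eval_finsetSum]
  refine sum_congr rfl fun a _ => ?_
  rw [eval_finsetSum, sum_eq_single c]
  · rw [eval_smul, eval_mul, h, lg_eval, if_pos rfl]
    simp
  · intro b _ hbc
    rw [eval_smul, eval_mul, h, lg_eval, if_neg hbc]
    simp
  · simp

end Sub

open _root_.Vale.Agent.P040.Sub Finset in
theorem sum_inf_le {W : Type} [AddCommGroup W] [Module ℝ W] [FiniteDimensional ℝ W] {m : ℕ}
    (X Y : Fin m → Submodule ℝ W) (h : ∀ a, X a ⊓ Y a = ⊥) :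
    ∑ a, ∑ b, finrank ℝ (X a ⊓ Y b : Submodule ℝ W) ≤ finrank ℝ W * (m ^ 2 / 4) := by
  have hPQ : ∀ a, (X a).dualAnnihilator ⊔ (Y a).dualAnnihilator = ⊤ := fun a => by
    rw [← Subspace.dualAnnihilator_inf_eq, h a, Submodule.dualAnnihilator_bot]
  have h1 := rank_le hPQ m
  let ι : (∀ a b : Fin m, (X a ⊓ Y b : Submodule ℝ W)) →ₗ[ℝ] (Fin m → Fin m → W) :=
    { toFun := fun w a b => (w a b : W)
      map_add' := fun _ _ => rfl
      map_smul' := fun _ _ => rfl }
  let f : (∀ a b : Fin m, (X a ⊓ Y b : Submodule ℝ W)) →ₗ[ℝ]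
      M (fun a => (X a).dualAnnihilator) (fun a => (Y a).dualAnnihilator) m :=
    LinearMap.codRestrict _ (itp.comp ι) (by
      intro w
      refine ⟨fun φ => ?_, fun a φ hφ => ?_, fun b φ hφ => ?_⟩
      · change Deg m (itp (ι w) φ)
        rw [itp_apply]
        exact Deg.sum _ fun a => Deg.sum _ fun b => (lg_Deg a b).smul _
      · refine (itp_map (ι w) φ a).trans (sum_eq_zero fun b _ => ?_)
        rw [(Submodule.mem_dualAnnihilator φ).mp hφ (ι w a b) (w a b).2.1, zero_smul]
      · refine (itp_eval (ι w) φ b).trans (sum_eq_zero fun a _ => ?_)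
        rw [(Submodule.mem_dualAnnihilator φ).mp hφ (ι w a b) (w a b).2.2, zero_smul])
  have hf : Function.Injective f := by
    intro v w hvw
    funext a b
    refine Subtype.ext (sub_eq_zero.mp ((forall_dual_apply_eq_zero_iff ℝ _).mp fun φ => ?_))
    have h2 : itp (ι v) φ = itp (ι w) φ := LinearMap.congr_fun (congrArg Subtype.val hvw) φ
    have h3 := congrArg (fun p => Polynomial.eval ((b : ℕ) : ℝ)
      (Polynomial.map (Polynomial.evalRingHom ((a : ℕ) : ℝ)) p)) h2
    simp only [itp_map, Polynomial.eval_finsetSum, Polynomial.eval_smul, lg_eval, smul_eq_mul,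
      mul_ite, mul_one, mul_zero, sum_ite_eq', mem_univ, if_true] at h3
    rw [map_sub, sub_eq_zero]
    exact h3
  have h4 := (f.rank_le_of_injective hf).trans h1
  rw [← finrank_eq_rank, Nat.cast_le, Module.finrank_pi_fintype, Subspace.dual_finrank_eq] at h4
  simp only [Module.finrank_pi_fintype] at h4
  exact h4.trans (Nat.mul_le_mul_left _ (sum_sub m))

end Vale.Agent.P040
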