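import Vale.Agent.P040.Defs
import Vale.Agent.P040.Plan
import Vale.Agent.P040.Sub
import Vale.Agent.P040.AlgC

namespace Vale.Agent.P040

open Finset Module

namespace Alg

lemma le_finrank_inf {n p q : ℕ} (hn : p + q + 1 = n) (χ χ' : Fin n → Fin n → ℝ)
    (r k : Fin n → ℝ) (S : Finset (Fin n × Fin n))
    (h : ∀ i j, i ≠ j → (i, j) ∉ S → χ i j - χ' i j = r i + k j) :
    p * q ≤ finrank ℝ ((beta p q χ).graph ⊓ (beta p q χ').graph :
      Submodule ℝ ((Fin p × Fin q → ℝ) × (Fin q × Fin p → ℝ))) + S.card := by
  classical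
  have h1 := LinearMap.finrank_range_add_finrank_ker (evs p q S)
  have h2 : finrank ℝ (LinearMap.range (evs p q S)) ≤ S.card := by
    simpa using Submodule.finrank_le (LinearMap.range (evs p q S))
  have h3 : finrank ℝ (Fin p × Fin q → ℝ) = p * q := by simp
  let f : LinearMap.ker (evs p q S) →ₗ[ℝ] ((beta p q χ).graph ⊓ (beta p q χ').graph :
      Submodule ℝ ((Fin p × Fin q → ℝ) × (Fin q × Fin p → ℝ))) :=
    LinearMap.codRestrict _ ((LinearMap.id.prod (beta p q χ)).comp (Submodule.subtype _)) (by
      intro v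
      refine ⟨rfl, ?_⟩
      change beta p q χ v.1 = beta p q χ' v.1
      refine beta_gauge hn χ χ' r k v.1 fun i j hij => ?_
      by_cases hS : (i, j) ∈ S
      · exact Or.inl (congrFun (LinearMap.mem_ker.mp v.2) ⟨(i, j), hS⟩)
      · exact Or.inr (h i j hij hS))
  have h4 : Function.Injective f := fun v w hvw =>
    Subtype.ext (congrArg (fun x => x.1.1) hvw)
  have h5 := LinearMap.finrank_le_finrank_of_injective h4
  omega

lemma arith (m : ℕ) : 2 * (m ^ 2 / 4) + 2 * d m + m = m * m := by
  unfold d
  obtain ⟨k, rfl | rfl⟩ := Nat.even_or_odd' m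
  · have h1 : (2 * k) ^ 2 / 4 = k * k := by
      rw [show (2 * k) ^ 2 = 4 * (k * k) by ring]; omega
    rw [h1, show 2 * k / 2 = k by omega]
    rcases k with _ | k
    · rfl
    · rw [show (2 * (k + 1) - 1) / 2 = k by omega]; ring
  · have h1 : (2 * k + 1) ^ 2 / 4 = k * k + k := by
      rw [show (2 * k + 1) ^ 2 = 4 * (k * k + k) + 1 by ring]; omega
    rw [h1, show (2 * k + 1) / 2 = k by omega, show (2 * k + 1 - 1) / 2 = k by omega]; ring

end Alg

open Alg in
theorem data_bound {m n c : ℕ} (D : Data m n c) : d m * d n ≤ c := by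
  classical
  rcases Nat.eq_zero_or_pos n with rfl | hpos
  · simp [d]
  set p := (n - 1) / 2 with hp
  set q := n / 2 with hq
  have hn : p + q + 1 = n := by omega
  have hpq : q = p ∨ q = p + 1 := by omega
  have hd : d n = p * q := mul_comm _ _
  have key := sum_inf_le (fun a => (beta p q (D.T a)).graph)
    (fun b => (beta p q fun i j => D.T b j i).graph) (fun a => by
      obtain ⟨α, r, k, hα, h⟩ := D.star a
      rw [eq_bot_iff]
      rintro ⟨v, w⟩ ⟨h1, h2⟩
      have h1' : w = beta p q (D.T a) v := h1
      have h2' : w = beta p q (fun i j => D.T a j i) v := h2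
      have h3 : beta p q (fun i j => D.T a i j - D.T a j i) v = 0 := by
        funext e
        have := congrFun (h1'.symm.trans h2') e
        rw [Pi.zero_apply, ← sub_eq_zero.mpr this]
        simp only [beta_apply, ← sum_sub_distrib]
        exact sum_congr rfl fun i _ => sum_congr rfl fun j _ => by ring
      have h4 : v = 0 := by
        apply nondeg hn hpq α hα
        rw [← h3]
        refine (beta_gauge hn _ _ r k v fun i j hij => Or.inr ?_).symm
        rw [h i j hij]; ring
      subst h4
      rw [map_zero] at h1'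
      subst h1'
      exact Submodule.zero_mem _)
  have hW : finrank ℝ ((Fin p × Fin q → ℝ) × (Fin q × Fin p → ℝ)) = 2 * (p * q) := by
    simp only [finrank_prod, finrank_fintype_fun_eq_card, Fintype.card_prod, Fintype.card_fin]
    ring
  rw [hW] at key
  have h1 : ∀ a b : Fin m, p * q ≤ finrank ℝ ((beta p q (D.T a)).graph ⊓
      (beta p q fun i j => D.T b j i).graph :
      Submodule ℝ ((Fin p × Fin q → ℝ) × (Fin q × Fin p → ℝ))) + (D.Bad a b).card +
      if a = b then p * q else 0 := fun a b => by
    by_cases hab : a = b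
    · rw [if_pos hab]; omega
    · obtain ⟨r, k, h⟩ := D.cross a b hab
      rw [if_neg hab]
      exact le_finrank_inf hn _ _ r k _ h
  have h2 := sum_le_sum fun a (_ : a ∈ univ) => sum_le_sum fun b (_ : b ∈ univ) => h1 a b
  simp only [sum_add_distrib, sum_ite_eq, mem_univ, if_true, sum_const, card_univ,
    Fintype.card_fin, smul_eq_mul] at h2
  have h3 := D.count
  have h4 := arith m
  rw [hd]
  generalize p * q = N at *
  have h5 : m * (m * N) = 2 * N * (m ^ 2 / 4) + 2 * (d m * N) + m * N := by
    rw [← mul_assoc, ← h4]; ring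
  omega

end Vale.Agent.P040
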