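import Mathlib

namespace Vale.Agent.P040.Alg

open Polynomial

/-- Two staircases form a poised set for separately polynomial functions. -/
def Poised (a b : ℕ) : Prop :=
  ∀ (F : ℝ → ℝ → ℝ) (R S : Set ℝ) (P Q : Finset ℝ) (γ : ℝ → ℝ),
    (∀ s ∈ R, ∃ f : ℝ[X], f.degree < b ∧ ∀ t ∈ S, F s t = f.eval t) →
    (∀ t ∈ S, ∃ f : ℝ[X], f.degree < a ∧ ∀ s ∈ R, F s t = f.eval s) →
    (∀ x ∈ P, x ∈ R ∧ x ∈ S) → (∀ x ∈ Q, x ∈ R ∧ x ∈ S) → Disjoint P Q →
    Set.InjOn γ P → Set.InjOn γ Q →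
    (∀ s ∈ P, ∀ t ∈ P, γ s < γ t → F s t = 0) →
    (∀ s ∈ Q, ∀ t ∈ Q, γ s < γ t → F s t = 0) →
    a + b + 1 ≤ P.card + Q.card → ∀ s ∈ R, ∀ t ∈ S, F s t = 0

lemma poised_symm {a b : ℕ} (h : Poised a b) : Poised b a := by
  intro F R S P Q γ h1 h2 h3 h4 h5 h6 h7 h8 h9 h10 s hs t ht
  refine h (fun x y => F y x) S R P Q (fun x => -γ x) h2 h1 (fun x hx => (h3 x hx).symm)
    (fun x hx => (h4 x hx).symm) h5 ?_ ?_ ?_ ?_ (by omega) t ht s hs
  · intro x hx y hy hxy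
    exact h6 hx hy (neg_injective hxy)
  · intro x hx y hy hxy
    exact h7 hx hy (neg_injective hxy)
  · intro x hx y hy hxy
    exact h8 y hy x hx (by linarith)
  · intro x hx y hy hxy
    exact h9 y hy x hx (by linarith)

lemma poised_zero (b : ℕ) : Poised 0 b := by
  intro F R S P Q γ _ h2 _ _ _ _ _ _ _ _ s hs t ht
  obtain ⟨f, hf, hF⟩ := h2 t ht
  have : f = 0 := by
    by_contra hne
    have := degree_eq_natDegree hne
    rw [this] at hf
    exact absurd hf (by simp)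
  rw [hF s hs, this, eval_zero]

lemma poised_step_aux {a b : ℕ} (hb : b ≤ a + 1) (h : Poised a b)
    (F : ℝ → ℝ → ℝ) (R S : Set ℝ) (P Q : Finset ℝ) (γ : ℝ → ℝ)
    (h1 : ∀ s ∈ R, ∃ f : ℝ[X], f.degree < b ∧ ∀ t ∈ S, F s t = f.eval t)
    (h2 : ∀ t ∈ S, ∃ f : ℝ[X], f.degree < (a + 1 : ℕ) ∧ ∀ s ∈ R, F s t = f.eval s)
    (h3 : ∀ x ∈ P, x ∈ R ∧ x ∈ S) (h4 : ∀ x ∈ Q, x ∈ R ∧ x ∈ S) (h5 : Disjoint P Q)
    (h6 : Set.InjOn γ P) (h7 : Set.InjOn γ Q)
    (h8 : ∀ s ∈ P, ∀ t ∈ P, γ s < γ t → F s t = 0)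
    (h9 : ∀ s ∈ Q, ∀ t ∈ Q, γ s < γ t → F s t = 0)
    (h10 : a + 1 + b + 1 ≤ P.card + Q.card) (hPQ : Q.card ≤ P.card) :
    ∀ s ∈ R, ∀ t ∈ S, F s t = 0 := by
  classical
  have hP : b + 1 ≤ P.card := by omega
  have hne : P.Nonempty := Finset.card_pos.mp (by omega)
  obtain ⟨x, hx, hmin⟩ := P.exists_min_image γ hne
  have hcard : (P.erase x).card + 1 = P.card := Finset.card_erase_add_one hx
  have hrow : ∀ t ∈ S, F x t = 0 := by
    obtain ⟨f, hf, hF⟩ := h1 x (h3 x hx).1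
    have hf0 : f = 0 := by
      apply eq_zero_of_degree_lt_of_eval_finset_eq_zero (P.erase x)
      · exact lt_of_lt_of_le hf (by exact_mod_cast (by omega : b ≤ (P.erase x).card))
      · intro y hy
        have hyP := Finset.mem_of_mem_erase hy
        rw [← hF y (h3 y hyP).2]
        apply h8 x hx y hyP
        refine lt_of_le_of_ne (hmin y hyP) fun he => ?_
        exact (Finset.ne_of_mem_erase hy) (h6 hx hyP he).symm
    intro t ht
    rw [hF t ht, hf0, eval_zero]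
  have key := h (fun s t => F s t / (s - x)) (R \ {x}) S (P.erase x) Q γ ?_ ?_ ?_ ?_ ?_ ?_ h7 ?_ ?_
    (by omega)
  · intro s hs t ht
    by_cases hsx : s = x
    · rw [hsx]; exact hrow t ht
    · have := key s ⟨hs, hsx⟩ t ht
      have hne' : s - x ≠ 0 := sub_ne_zero.mpr hsx
      simpa [hne'] using this
  · intro s hs
    obtain ⟨f, hf, hF⟩ := h1 s hs.1
    refine ⟨f * C (s - x)⁻¹, ?_, fun t ht => ?_⟩
    · refine lt_of_le_of_lt ?_ hf
      rw [mul_comm, ← smul_eq_C_mul]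
      exact degree_smul_le _ _
    · rw [eval_mul, eval_C, hF t ht, div_eq_mul_inv]
  · intro t ht
    obtain ⟨f, hf, hF⟩ := h2 t ht
    have hroot : f.IsRoot x := by
      rw [IsRoot.def, ← hF x (h3 x hx).1]; exact hrow t ht
    obtain ⟨g, hg⟩ := dvd_iff_isRoot.mpr hroot
    refine ⟨g, ?_, fun s hs => ?_⟩
    · by_cases hg0 : g = 0
      · rw [hg0, degree_zero]; exact WithBot.bot_lt_coe _
      · rw [hg, degree_mul, degree_X_sub_C, degree_eq_natDegree hg0] at hf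
        rw [degree_eq_natDegree hg0]
        have hf' : 1 + g.natDegree < a + 1 := by exact_mod_cast hf
        exact_mod_cast (by omega : g.natDegree < a)
    · have hne' : s - x ≠ 0 := sub_ne_zero.mpr hs.2
      rw [hF s hs.1, hg, eval_mul, eval_sub, eval_X, eval_C]
      field_simp
  · intro y hy
    exact ⟨⟨(h3 y (Finset.mem_of_mem_erase hy)).1, Finset.ne_of_mem_erase hy⟩,
      (h3 y (Finset.mem_of_mem_erase hy)).2⟩
  · intro y hy
    refine ⟨⟨(h4 y hy).1, fun he => ?_⟩, (h4 y hy).2⟩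
    have he' : y = x := he
    exact Finset.disjoint_left.mp h5 hx (he' ▸ hy)
  · exact Finset.disjoint_of_subset_left (Finset.erase_subset _ _) h5
  · exact h6.mono (by simp)
  · intro s hs t ht hst
    simp only [h8 s (Finset.mem_of_mem_erase hs) t (Finset.mem_of_mem_erase ht) hst, zero_div]
  · intro s hs t ht hst
    simp only [h9 s hs t ht hst, zero_div]

lemma poised_step {a b : ℕ} (hb : b ≤ a + 1) (h : Poised a b) : Poised (a + 1) b := by
  intro F R S P Q γ h1 h2 h3 h4 h5 h6 h7 h8 h9 h10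
  rcases le_total Q.card P.card with hPQ | hPQ
  · exact poised_step_aux hb h F R S P Q γ h1 h2 h3 h4 h5 h6 h7 h8 h9 h10 hPQ
  · exact poised_step_aux hb h F R S Q P γ h1 h2 h4 h3 h5.symm h7 h6 h9 h8 (by omega) hPQ

theorem poised (a b : ℕ) : Poised a b := by
  induction' hs : a + b with s ih generalizing a b
  · have : a = 0 := by omega
    subst this; exact poised_zero b
  · rcases le_total b a with hab | hab
    · obtain ⟨a', rfl⟩ : ∃ a', a = a' + 1 := ⟨a - 1, by omega⟩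
      exact poised_step hab (ih a' b (by omega))
    · obtain ⟨b', rfl⟩ : ∃ b', b = b' + 1 := ⟨b - 1, by omega⟩
      exact poised_symm (poised_step hab (ih b' a (by omega)))

end Vale.Agent.P040.Alg
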