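import Vale.Agent.P040.AlgA

namespace Vale.Agent.P040.Alg

open Polynomial Finset Module

/-- Evaluation of a coefficient vector as a polynomial in two variables. -/
def ev (p q : ℕ) (s t : ℝ) : (Fin p × Fin q → ℝ) →ₗ[ℝ] ℝ where
  toFun v := ∑ e, v e * (s ^ (e.1 : ℕ) * t ^ (e.2 : ℕ))
  map_add' v w := by simp [add_mul, sum_add_distrib]
  map_smul' c v := by simp [mul_sum, mul_assoc]

lemma ev_apply (p q : ℕ) (s t : ℝ) (v : Fin p × Fin q → ℝ) :
    ev p q s t v = ∑ e, v e * (s ^ (e.1 : ℕ) * t ^ (e.2 : ℕ)) := rfl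

/-- The nodes. -/
def z {n : ℕ} (i : Fin n) : ℝ := ((i : ℕ) : ℝ)

lemma z_inj {n : ℕ} : Function.Injective (z : Fin n → ℝ) := fun _ _ h =>
  Fin.ext (Nat.cast_injective (R := ℝ) h)

/-- The nodal weights. -/
noncomputable def nu {n : ℕ} (i : Fin n) : ℝ := (∏ j ∈ univ.erase i, (z i - z j))⁻¹

lemma nu_ne {n : ℕ} (i : Fin n) : nu i ≠ 0 := by
  refine inv_ne_zero (prod_ne_zero_iff.mpr fun j hj => sub_ne_zero.mpr fun h => ?_)
  exact ne_of_mem_erase hj (z_inj h).symm

lemma nu_sum {n e : ℕ} (he : e + 2 ≤ n) : ∑ j : Fin n, nu j * z j ^ e = 0 := by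
  have h := Lagrange.coeff_eq_sum (s := (univ : Finset (Fin n))) (v := z) z_inj.injOn
    (P := (X : ℝ[X]) ^ e) (by
      rw [degree_X_pow, card_univ, Fintype.card_fin]
      exact_mod_cast (by omega : e < n))
  rw [coeff_X_pow, card_univ, Fintype.card_fin, if_neg (by omega)] at h
  rw [h]
  refine sum_congr rfl fun j _ => ?_
  rw [eval_pow, eval_X, nu, div_eq_mul_inv, mul_comm]

/-- The gauge invariant linear map attached to a matrix. -/
noncomputable def beta {n : ℕ} (p q : ℕ) (χ : Fin n → Fin n → ℝ) :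
    (Fin p × Fin q → ℝ) →ₗ[ℝ] (Fin q × Fin p → ℝ) where
  toFun v := fun e => ∑ i, ∑ j, χ i j * ((z i - z j) * nu i * nu j) * ev p q (z i) (z j) v *
    (z i ^ (e.1 : ℕ) * z j ^ (e.2 : ℕ))
  map_add' v w := by
    funext e
    simp [mul_add, add_mul, sum_add_distrib]
  map_smul' c v := by
    funext e
    simp only [map_smul, smul_eq_mul, RingHom.id_apply, Pi.smul_apply, mul_sum]
    refine sum_congr rfl fun i _ => sum_congr rfl fun j _ => by ring

lemma beta_apply {n : ℕ} (p q : ℕ) (χ : Fin n → Fin n → ℝ) (v : Fin p × Fin q → ℝ)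
    (e : Fin q × Fin p) : beta p q χ v e =
      ∑ i, ∑ j, χ i j * ((z i - z j) * nu i * nu j) * ev p q (z i) (z j) v *
        (z i ^ (e.1 : ℕ) * z j ^ (e.2 : ℕ)) := rfl

lemma kill_r {n p q : ℕ} (hn : p + q + 1 = n) (v : Fin p × Fin q → ℝ) (e : Fin q × Fin p)
    (i : Fin n) (c : ℝ) :
    ∑ j : Fin n, c * ((z i - z j) * nu i * nu j) * ev p q (z i) (z j) v *
      (z i ^ (e.1 : ℕ) * z j ^ (e.2 : ℕ)) = 0 := by
  simp only [ev_apply, mul_sum, sum_mul]
  rw [sum_comm]
  refine sum_eq_zero fun f _ => ?_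
  have h1 := nu_sum (n := n) (e := f.2 + e.2) (by have := f.2.2; have := e.2.2; omega)
  have h2 := nu_sum (n := n) (e := f.2 + e.2 + 1) (by have := f.2.2; have := e.2.2; omega)
  calc _ = (c * nu i * v f * z i ^ (f.1 : ℕ) * z i ^ (e.1 : ℕ)) *
        (z i * ∑ j : Fin n, nu j * z j ^ ((f.2 : ℕ) + e.2) -
          ∑ j : Fin n, nu j * z j ^ ((f.2 : ℕ) + e.2 + 1)) := by
        simp only [mul_sum, ← sum_sub_distrib]
        exact sum_congr rfl fun j _ => by ring
    _ = 0 := by rw [h1, h2]; ring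

lemma kill_k {n p q : ℕ} (hn : p + q + 1 = n) (v : Fin p × Fin q → ℝ) (e : Fin q × Fin p)
    (j : Fin n) (c : ℝ) :
    ∑ i : Fin n, c * ((z i - z j) * nu i * nu j) * ev p q (z i) (z j) v *
      (z i ^ (e.1 : ℕ) * z j ^ (e.2 : ℕ)) = 0 := by
  simp only [ev_apply, mul_sum, sum_mul]
  rw [sum_comm]
  refine sum_eq_zero fun f _ => ?_
  have h1 := nu_sum (n := n) (e := f.1 + e.1) (by have := f.1.2; have := e.1.2; omega)
  have h2 := nu_sum (n := n) (e := f.1 + e.1 + 1) (by have := f.1.2; have := e.1.2; omega)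
  calc _ = (c * nu j * v f * z j ^ (f.2 : ℕ) * z j ^ (e.2 : ℕ)) *
        (∑ i : Fin n, nu i * z i ^ ((f.1 : ℕ) + e.1 + 1) -
          z j * ∑ i : Fin n, nu i * z i ^ ((f.1 : ℕ) + e.1)) := by
        simp only [mul_sum, ← sum_sub_distrib]
        exact sum_congr rfl fun j _ => by ring
    _ = 0 := by rw [h1, h2]; ring

lemma beta_gauge {n p q : ℕ} (hn : p + q + 1 = n) (χ χ' : Fin n → Fin n → ℝ) (r k : Fin n → ℝ)
    (v : Fin p × Fin q → ℝ)
    (h : ∀ i j, i ≠ j → ev p q (z i) (z j) v = 0 ∨ χ i j - χ' i j = r i + k j) :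
    beta p q χ v = beta p q χ' v := by
  funext e
  rw [← sub_eq_zero, beta_apply, beta_apply]
  have h1 : ∑ i : Fin n, ∑ j : Fin n, r i * ((z i - z j) * nu i * nu j) * ev p q (z i) (z j) v *
      (z i ^ (e.1 : ℕ) * z j ^ (e.2 : ℕ)) = 0 := sum_eq_zero fun i _ => kill_r hn v e i _
  have h2 : ∑ i : Fin n, ∑ j : Fin n, k j * ((z i - z j) * nu i * nu j) * ev p q (z i) (z j) v *
      (z i ^ (e.1 : ℕ) * z j ^ (e.2 : ℕ)) = 0 := by
    rw [sum_comm]
    exact sum_eq_zero fun j _ => kill_k hn v e j _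
  refine Eq.trans ?_ ((congrArg₂ (· + ·) h1 h2).trans (add_zero 0))
  simp only [← sum_sub_distrib, ← sum_add_distrib]
  refine sum_congr rfl fun i _ => sum_congr rfl fun j _ => ?_
  by_cases hij : i = j
  · subst hij; simp
  · rcases h i j hij with h0 | h0
    · rw [h0]; ring
    · have : χ i j = χ' i j + r i + k j := by linarith
      rw [this]; ring

lemma eq_zero_of_ev {p q : ℕ} (v : Fin p × Fin q → ℝ) (h : ∀ s t, ev p q s t v = 0) : v = 0 := by
  funext e
  have h1 : ∀ t : ℝ, (fun a : Fin p => ∑ b : Fin q, v (a, b) * t ^ (b : ℕ)) = 0 := fun t => by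
    apply Matrix.eq_zero_of_forall_index_sum_mul_pow_eq_zero (f := z) z_inj
    intro j
    rw [← h (z j) t, ev_apply, Fintype.sum_prod_type]
    refine sum_congr rfl fun a _ => ?_
    rw [sum_mul]
    exact sum_congr rfl fun b _ => by ring
  have h2 : (fun b : Fin q => v (e.1, b)) = 0 := by
    apply Matrix.eq_zero_of_forall_index_sum_mul_pow_eq_zero (f := z) z_inj
    intro j
    exact congrFun (h1 (z j)) e.1
  exact congrFun h2 e.2

lemma ev_poised {n p q : ℕ} (hn : p + q + 1 = n) (I : Finset (Fin n)) (g : Fin n → ℝ)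
    (g1 : Set.InjOn g I) (g2 : Set.InjOn g (Iᶜ : Finset (Fin n))) (v : Fin p × Fin q → ℝ)
    (h : ∀ i j, (i ∈ I ↔ j ∈ I) → g i < g j → ev p q (z i) (z j) v = 0) : v = 0 := by
  classical
  apply eq_zero_of_ev
  have hx : ∀ i, Function.extend z g 0 (z i) = g i := fun i => z_inj.extend_apply _ _ i
  intro s t
  refine poised p q (fun s t => ev p q s t v) Set.univ Set.univ (I.image z) (Iᶜ.image z)
    (Function.extend z g 0) ?_ ?_ (by simp) (by simp) ?_ ?_ ?_ ?_ ?_ ?_ s trivial t trivial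
  · intro s _
    refine ⟨∑ b : Fin q, C (∑ a : Fin p, v (a, b) * s ^ (a : ℕ)) * X ^ (b : ℕ),
      degree_sum_fin_lt _, fun t _ => ?_⟩
    rw [ev_apply, Fintype.sum_prod_type_right, eval_finsetSum]
    refine sum_congr rfl fun b _ => ?_
    rw [eval_mul, eval_C, eval_pow, eval_X, sum_mul]
    exact sum_congr rfl fun a _ => by ring
  · intro t _
    refine ⟨∑ a : Fin p, C (∑ b : Fin q, v (a, b) * t ^ (b : ℕ)) * X ^ (a : ℕ),
      degree_sum_fin_lt _, fun s _ => ?_⟩
    rw [ev_apply, Fintype.sum_prod_type, eval_finsetSum]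
    refine sum_congr rfl fun a _ => ?_
    rw [eval_mul, eval_C, eval_pow, eval_X, sum_mul]
    exact sum_congr rfl fun b _ => by ring
  · exact (disjoint_image z_inj).mpr disjoint_compl_right
  · intro x hx' y hy hxy
    obtain ⟨i, hi, rfl⟩ := mem_image.mp hx'
    obtain ⟨j, hj, rfl⟩ := mem_image.mp hy
    rw [hx, hx] at hxy
    rw [g1 hi hj hxy]
  · intro x hx' y hy hxy
    obtain ⟨i, hi, rfl⟩ := mem_image.mp hx'
    obtain ⟨j, hj, rfl⟩ := mem_image.mp hy
    rw [hx, hx] at hxy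
    rw [g2 hi hj hxy]
  · intro x hx' y hy hxy
    obtain ⟨i, hi, rfl⟩ := mem_image.mp hx'
    obtain ⟨j, hj, rfl⟩ := mem_image.mp hy
    rw [hx, hx] at hxy
    exact h i j (iff_of_true hi hj) hxy
  · intro x hx' y hy hxy
    obtain ⟨i, hi, rfl⟩ := mem_image.mp hx'
    obtain ⟨j, hj, rfl⟩ := mem_image.mp hy
    rw [hx, hx] at hxy
    exact h i j (iff_of_false (mem_compl.mp hi) (mem_compl.mp hj)) hxy
  · rw [card_image_of_injective _ z_inj, card_image_of_injective _ z_inj, card_add_card_compl,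
      Fintype.card_fin]
    omega

end Vale.Agent.P040.Alg
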