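import Mathlib

namespace Vale.Agent.P040

open Set Complex

/-- Total change of argument of `g` along `[s,t]`; zero when there is no continuous logarithm. -/
noncomputable def ang (g : ℝ → ℂ) (s t : ℝ) : ℝ :=
  open Classical in
  if h : ∃ L : ℝ → ℂ, ContinuousOn L (Icc s t) ∧ ∀ x ∈ Icc s t, exp (L x) = g x then
    (h.choose t - h.choose s).im else 0

noncomputable def psi (x y : ℝ) : ℝ := x - y + if x < y then Real.pi else -Real.pi

theorem ang_eq {g L : ℝ → ℂ} {s t : ℝ} (hst : s ≤ t) (hL : ContinuousOn L (Icc s t))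
    (he : ∀ x ∈ Icc s t, exp (L x) = g x) : ang g s t = (L t - L s).im := by
  have h : ∃ L : ℝ → ℂ, ContinuousOn L (Icc s t) ∧ ∀ x ∈ Icc s t, exp (L x) = g x := ⟨L, hL, he⟩
  unfold ang
  rw [dif_pos h]
  obtain ⟨h1, h2⟩ := h.choose_spec
  have h3 : ∀ x ∈ Icc s t, exp (h.choose x - L x) = 1 := fun x hx => by
    rw [exp_sub, h2 x hx, ← he x hx, div_self (exp_ne_zero _)]
  have h4 := isCoveringMap_exp.constOn_of_comp (g := fun x => h.choose x - L x)
    isPreconnected_Icc (h1.sub hL)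
    (fun a ha a' ha' => Subtype.ext (by simp only [h3 a ha, h3 a' ha']))
    (left_mem_Icc.2 hst) (right_mem_Icc.2 hst)
  congr 1
  linear_combination -h4

theorem ang_zero {g : ℝ → ℂ} {s t x : ℝ} (hx : x ∈ Icc s t) (h0 : g x = 0) : ang g s t = 0 := by
  unfold ang
  rw [dif_neg]
  rintro ⟨L, -, h⟩
  exact exp_ne_zero _ ((h x hx).trans h0)

theorem ang_sq {γ δ : ℝ → ℂ} (hγ : Continuous γ) (hδ : Continuous δ) {s t u v : ℝ}
    (hst : s ≤ t) (huv : u ≤ v) (hd : ∀ x ∈ Icc s t, ∀ y ∈ Icc u v, γ x ≠ δ y) :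
    ang (fun x => γ x - δ v) s t - ang (fun x => γ x - δ u) s t =
      ang (fun y => δ y - γ t) u v - ang (fun y => δ y - γ s) u v := by
  let F : C(ℝ × ℝ, ℂ) := ⟨fun p => γ (max s (min p.1 t)) - δ (max u (min p.2 v)), by fun_prop⟩
  have hF : ∀ p, F p ≠ 0 := fun p =>
    sub_ne_zero.2 (hd _ ⟨le_max_left _ _, max_le hst (min_le_right _ _)⟩ _
      ⟨le_max_left _ _, max_le huv (min_le_right _ _)⟩)
  obtain ⟨L, ⟨-, hL⟩, -⟩ := isCoveringMapOn_exp.existsUnique_continuousMap_lifts F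
    (a₀ := (0, 0)) (exp_log (hF _)) hF
  have hL' : ∀ x ∈ Icc s t, ∀ y ∈ Icc u v, exp (L (x, y)) = γ x - δ y := by
    intro x hx y hy
    have := congrFun hL (x, y)
    simp only [Function.comp_apply, F, ContinuousMap.coe_mk] at this
    rwa [min_eq_left hx.2, max_eq_right hx.1, min_eq_left hy.2, max_eq_right hy.1] at this
  have a1 : ∀ y ∈ Icc u v, ang (fun x => γ x - δ y) s t = (L (t, y) - L (s, y)).im :=
    fun y hy => ang_eq (L := fun x => L (x, y)) hst (by fun_prop) fun x hx => hL' x hx y hy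
  have a2 : ∀ x ∈ Icc s t, ang (fun y => δ y - γ x) u v =
      (L (x, v) + Real.pi * I - (L (x, u) + Real.pi * I)).im :=
    fun x hx => ang_eq (L := fun y => L (x, y) + Real.pi * I) huv (by fun_prop) fun y hy => by
      rw [exp_add, exp_pi_mul_I, hL' x hx y hy]; ring
  rw [a1 v (right_mem_Icc.2 huv), a1 u (left_mem_Icc.2 huv), a2 t (right_mem_Icc.2 hst),
    a2 s (left_mem_Icc.2 hst)]
  simp only [sub_im, add_im]
  ring

theorem ang_disc {γ : ℝ → ℂ} (hγ : Continuous γ) {s t ε : ℝ} {c w : ℂ} (hst : s ≤ t)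
    (hε : 0 < ε) (hw : ‖w - c‖ = ε) (hin : ∀ x ∈ Icc s t, ‖γ x - c‖ ≤ ε)
    (hne : ∀ x ∈ Icc s t, γ x ≠ w) :
    ang (fun x => γ x - w) s t = arg ((γ t - w) / (c - w)) - arg ((γ s - w) / (c - w)) := by
  have hcw : c - w ≠ 0 := by
    intro h
    rw [← norm_neg, neg_sub, h, norm_zero] at hw
    exact hε.ne hw
  have hz : ∀ x ∈ Icc s t, (γ x - w) / (c - w) ≠ 0 := fun x hx =>
    div_ne_zero (sub_ne_zero.2 (hne x hx)) hcw
  have hs : ∀ x ∈ Icc s t, (γ x - w) / (c - w) ∈ slitPlane := by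
    intro x hx
    have h1 : (γ x - w) / (c - w) = 1 + (γ x - c) / (c - w) := by field_simp; ring
    have h2 : ‖(γ x - c) / (c - w)‖ ≤ 1 := by
      rw [norm_div, ← norm_neg (c - w), neg_sub, hw, div_le_one hε]; exact hin x hx
    have h3 := hz x hx
    rw [h1] at h3 ⊢
    generalize (γ x - c) / (c - w) = z at h2 h3
    rw [mem_slitPlane_iff]
    by_contra h4
    push Not at h4
    apply h3
    have h5 := (abs_le.1 ((abs_re_le_norm z).trans h2)).1
    apply Complex.ext
    · simp only [add_re, one_re, zero_re] at h4 ⊢; linarith [h4.1]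
    · simpa using h4.2
  rw [ang_eq (L := fun x => log ((γ x - w) / (c - w)) + log (c - w)) hst]
  · simp only [sub_im, add_im, log_im]; ring
  · refine ContinuousOn.add (ContinuousOn.clog (by fun_prop) hs) continuousOn_const
  · intro x hx
    rw [exp_add, exp_log (hz x hx), exp_log hcw, div_mul_cancel₀ _ hcw]

theorem arg_one_sub {θ : ℝ} (h0 : 0 < θ) (h1 : θ < 2 * Real.pi) :
    arg (1 - exp (θ * I)) = (θ - Real.pi) / 2 := by
  obtain ⟨φ, rfl⟩ : ∃ φ, θ = 2 * φ := ⟨θ / 2, by ring⟩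
  have hs : 0 < 2 * Real.sin φ := by
    have := Real.sin_pos_of_pos_of_lt_pi (x := φ) (by linarith) (by linarith)
    linarith
  have hpi := Real.pi_pos
  have h := arg_mul_cos_add_sin_mul_I hs (θ := φ - Real.pi / 2) ⟨by linarith, by linarith⟩
  rw [show (2 * φ - Real.pi) / 2 = φ - Real.pi / 2 by ring, ← h]
  congr 1
  rw [exp_mul_I]
  push_cast
  rw [cos_sub_pi_div_two, sin_sub_pi_div_two, cos_two_mul, sin_two_mul]
  linear_combination (-2) * (sin_sq_add_cos_sq (φ : ℂ))

theorem arg_psi {c u w : ℂ} {ε : ℝ} (hε : 0 < ε) (hu : ‖u - c‖ = ε) (hw : ‖w - c‖ = ε)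
    (hne : u ≠ w) : arg (u - c) ≠ arg (w - c) ∧
      arg ((u - w) / (c - w)) - arg ((w - u) / (c - u)) = psi (arg (u - c)) (arg (w - c)) := by
  have e1 := norm_mul_exp_arg_mul_I (u - c)
  have e2 := norm_mul_exp_arg_mul_I (w - c)
  rw [hu] at e1
  rw [hw] at e2
  have b1 := arg_mem_Ioc (u - c)
  have b2 := arg_mem_Ioc (w - c)
  generalize arg (u - c) = α at *
  generalize arg (w - c) = β at *
  have hab : α ≠ β := by
    rintro rfl
    apply hne
    linear_combination e2 - e1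
  refine ⟨hab, ?_⟩
  have hε' : (ε : ℂ) ≠ 0 := by exact_mod_cast hε.ne'
  have f1 : (u - w) / (c - w) = 1 - exp ((α - β : ℝ) * I) := by
    rw [show u - w = (u - c) - (w - c) by ring, show c - w = -(w - c) by ring, ← e1, ← e2]
    push_cast
    rw [sub_mul, exp_sub]
    field_simp
    ring
  have f2 : (w - u) / (c - u) = 1 - exp ((β - α : ℝ) * I) := by
    rw [show w - u = (w - c) - (u - c) by ring, show c - u = -(u - c) by ring, ← e1, ← e2]
    push_cast
    rw [sub_mul, exp_sub]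
    field_simp
    ring
  have per : ∀ θ : ℝ, exp (θ * I) = exp ((θ + 2 * Real.pi : ℝ) * I) := fun θ => by
    push_cast
    rw [add_mul, exp_add, exp_two_pi_mul_I, mul_one]
  rw [f1, f2]
  unfold psi
  obtain ⟨b11, b12⟩ := b1
  obtain ⟨b21, b22⟩ := b2
  rcases lt_or_gt_of_ne hab with h | h
  · rw [if_pos h, per (α - β), arg_one_sub (by linarith) (by linarith),
      arg_one_sub (by linarith) (by linarith)]
    ring
  · rw [if_neg h.not_gt, per (β - α), arg_one_sub (by linarith) (by linarith),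
      arg_one_sub (by linarith) (by linarith)]
    ring

end Vale.Agent.P040
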