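import Mathlib

namespace Vale.Agent.P040.Chain

open Finset

variable {S E : Type}

/-- `μ` reaches `ter e` by steps of `σ` through elements outside the range of `ter`. -/
inductive Ch (σ : S → S) (ter : E → S) (e : E) : S → Prop
  | base : Ch σ ter e (ter e)
  | step (μ : S) : μ ∉ Set.range ter → Ch σ ter e (σ μ) → Ch σ ter e μ

theorem Ch.of_ter {σ : S → S} {ter : E → S} (ht : Function.Injective ter) {e e' : E}
    (h : Ch σ ter e (ter e')) : e' = e := by
  generalize hx : ter e' = x at h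
  cases h with
  | base => exact ht hx
  | step μ hμ _ => exact absurd ⟨e', hx⟩ hμ

theorem Ch.next {σ : S → S} {ter : E → S} {e : E} {μ : S} (h : Ch σ ter e μ)
    (hμ : μ ∉ Set.range ter) : Ch σ ter e (σ μ) := by
  cases h with
  | base => exact absurd ⟨e, rfl⟩ hμ
  | step _ _ h => exact h

theorem Ch.uniq {σ : S → S} {ter : E → S} (ht : Function.Injective ter) {e e' : E} {μ : S}
    (h : Ch σ ter e μ) (h' : Ch σ ter e' μ) : e = e' := by
  induction h with
  | base => exact h'.of_ter ht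
  | step μ hμ _ ih => exact ih (h'.next hμ)

theorem Ch.inv {α : Type} {σ : S → S} {ter : E → S} {φ : S → α} (hφ : ∀ μ, φ (σ μ) = φ μ)
    {e : E} {μ : S} (h : Ch σ ter e μ) : φ μ = φ (ter e) := by
  induction h with
  | base => rfl
  | step μ _ _ ih => rw [← hφ μ, ih]

theorem exists_init [Fintype S] {σ : S → S} (hσ : Function.Injective σ) {ter : E → S}
    (ht : Function.Injective ter) (e : E) {C N : Finset S} (hmC : ∀ μ, μ ∈ C ↔ Ch σ ter e μ)
    (hmN : ∀ μ, μ ∈ N ↔ Ch σ ter e μ ∧ μ ∉ Set.range ter) :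
    ∃ e' : E, Ch σ ter e (σ (ter e')) ∧ ∀ F : S → Bool → ℝ,
      ∑ μ ∈ C, (F μ true - F μ false) =
        F (ter e) true - F (σ (ter e')) false + ∑ μ ∈ N, (F μ true - F (σ μ) false) := by
  classical
  have htN : ter e ∉ N := fun h => ((hmN _).1 h).2 ⟨e, rfl⟩
  have hCN : C = insert (ter e) N := by
    ext μ
    rw [mem_insert, hmC, hmN]
    constructor
    · intro h
      by_cases hμ : μ ∈ Set.range ter
      · obtain ⟨e', rfl⟩ := hμ
        left; rw [h.of_ter ht]
      · exact Or.inr ⟨h, hμ⟩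
    · rintro (rfl | h)
      · exact Ch.base
      · exact h.1
  have hsub : N.image σ ⊆ C := by
    intro ν hν
    obtain ⟨μ, hμ, rfl⟩ := mem_image.1 hν
    exact (hmC _).2 (((hmN _).1 hμ).1.next ((hmN _).1 hμ).2)
  have hcard : (C \ N.image σ).card = 1 := by
    rw [card_sdiff_of_subset hsub, card_image_of_injective _ hσ, hCN, card_insert_of_notMem htN]
    omega
  obtain ⟨x, hx⟩ := card_eq_one.1 hcard
  have hxm : x ∈ C \ N.image σ := by rw [hx]; exact mem_singleton_self x
  rw [mem_sdiff] at hxm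
  obtain ⟨y, rfl⟩ := (Finite.injective_iff_surjective.1 hσ) x
  have hy : y ∈ Set.range ter := by
    by_contra hy
    exact hxm.2 (mem_image.2 ⟨y, (hmN _).2 ⟨Ch.step y hy ((hmC _).1 hxm.1), hy⟩, rfl⟩)
  obtain ⟨e', rfl⟩ := hy
  refine ⟨e', (hmC _).1 hxm.1, fun F => ?_⟩
  have hC2 : C = insert (σ (ter e')) (N.image σ) := by
    rw [insert_eq, ← hx, sdiff_union_of_subset hsub]
  rw [sum_sub_distrib, sum_sub_distrib]
  have h1 : ∑ μ ∈ C, F μ true = F (ter e) true + ∑ μ ∈ N, F μ true := by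
    rw [hCN, sum_insert htN]
  have h2 : ∑ μ ∈ C, F μ false = F (σ (ter e')) false + ∑ μ ∈ N, F (σ μ) false := by
    rw [hC2, sum_insert hxm.2, sum_image (fun a _ b _ h => hσ h)]
  rw [h1, h2]; ring

end Vale.Agent.P040.Chain
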