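import Vale.Agent.P040.Plan
import Vale.Agent.P040.ChainA

namespace Vale.Agent.P040.Chain

open Finset

theorem psi_anti {x y : ℝ} (h : x ≠ y) : psi y x = - psi x y := by
  unfold psi
  rcases lt_or_gt_of_ne h with h | h
  · rw [if_pos h, if_neg (not_lt.2 h.le)]; ring
  · rw [if_pos h, if_neg (not_lt.2 h.le)]; ring

/-- The crossing indicator of two passes through a point. -/
noncomputable def X (u w u' w' : ℝ) : ℝ := psi w w' - psi u w' - psi w u' + psi u u'

theorem X_anti {i o i' o' : ℝ} (h1 : i ≠ i') (h2 : i ≠ o') (h3 : o ≠ i') (h4 : o ≠ o') :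
    X i' o' i o = - X i o i' o' := by
  unfold X
  rw [psi_anti h1, psi_anti h2, psi_anti h3, psi_anti h4]; ring

theorem X_or {i o i' o' : ℝ} (h1 : i ≠ i') (h2 : i ≠ o') (h3 : o ≠ i') (h4 : o ≠ o')
    (h5 : i ≠ o) (h6 : i' ≠ o') : X i o i' o' = 0 ∨ X i o' i' o = 0 := by
  unfold X psi
  rcases lt_or_gt_of_ne h1 with h1 | h1 <;> rcases lt_or_gt_of_ne h2 with h2 | h2 <;>
    rcases lt_or_gt_of_ne h3 with h3 | h3 <;> rcases lt_or_gt_of_ne h4 with h4 | h4 <;>
    rcases lt_or_gt_of_ne h5 with h5 | h5 <;> rcases lt_or_gt_of_ne h6 with h6 | h6 <;>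
    first
    | (exfalso; linarith)
    | (left; simp only [h1, h2, h3, h4, h5, h6, h1.not_gt, h2.not_gt, h3.not_gt, h4.not_gt,
        h5.not_gt, h6.not_gt, if_true, if_false]; ring1)
    | (right; simp only [h1, h2, h3, h4, h5, h6, h1.not_gt, h2.not_gt, h3.not_gt, h4.not_gt,
        h5.not_gt, h6.not_gt, if_true, if_false]; ring1)

variable {m n : ℕ} {S : Type} (P : Plan m n S)

theorem ter_inj : Function.Injective P.ter := fun e e' h => by
  rw [← P.ed_ter e, h, P.ed_ter]

/-- Nonterminal segments. -/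
def NT (μ : S) : Prop := μ ≠ P.ter (P.ed μ)

theorem nt_iff (μ : S) : μ ∉ Set.range P.ter ↔ NT P μ := by
  constructor
  · intro h h'; exact h ⟨_, h'.symm⟩
  · rintro h ⟨e, rfl⟩; exact h (by rw [P.ed_ter])

theorem not_nt (e : Fin m × Fin n) : ¬ NT P (P.ter e) := fun h => h (by rw [P.ed_ter])

open Classical in
/-- The partner segment ending at the same crossing. -/
noncomputable def pr (μ : S) : S := if h : NT P μ then (P.par μ h).choose else μ

variable {P}

theorem pr_spec {μ : S} (h : NT P μ) : pr P μ ≠ μ ∧ P.nd (pr P μ) true = P.nd μ true ∧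
    ∀ ρ, P.nd ρ true = P.nd μ true → ρ = μ ∨ ρ = pr P μ := by
  unfold pr; rw [dif_pos h]; exact (P.par μ h).choose_spec

theorem nt_of_mem {μ : S} (h : P.nd μ true ∈ P.Cr) : NT P μ := by
  intro h'
  rw [h', P.nd_ter] at h
  exact P.B_nm _ h

theorem pr_nt {μ : S} (h : NT P μ) : NT P (pr P μ) :=
  nt_of_mem (by rw [(pr_spec h).2.1]; exact P.nd_mem μ h)

theorem pr_pr {μ : S} (h : NT P μ) : pr P (pr P μ) = μ := by
  have h1 := pr_spec h
  have h2 := pr_spec (pr_nt h)
  rcases h1.2.2 _ (h2.2.1.trans h1.2.1) with h3 | h3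
  · exact h3
  · exact absurd h3 h2.1

theorem ne_nx {μ ν : S} (hν : NT P ν) (h : P.nd ν true = P.nd μ true) : μ ≠ P.nx ν := by
  intro h'
  apply P.nd_ne μ
  rw [← h, ← P.nd_nx ν hν, ← h']

theorem angles {μ : S} (h : NT P μ) :
    P.al μ true ≠ P.al (pr P μ) true ∧ P.al μ true ≠ P.al (P.nx (pr P μ)) false ∧
    P.al (P.nx μ) false ≠ P.al (pr P μ) true ∧
    P.al (P.nx μ) false ≠ P.al (P.nx (pr P μ)) false ∧
    P.al μ true ≠ P.al (P.nx μ) false ∧ P.al (pr P μ) true ≠ P.al (P.nx (pr P μ)) false := by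
  have h1 := pr_spec h
  have h2 := pr_nt h
  have e1 := P.nd_nx μ h
  have e2 := P.nd_nx _ h2
  refine ⟨P.al_ne _ _ _ _ h1.1.symm h1.2.1.symm, P.al_ne _ _ _ _ (ne_nx h2 h1.2.1) ?_,
    P.al_ne _ _ _ _ (ne_nx h h1.2.1.symm).symm ?_,
    P.al_ne _ _ _ _ (fun h' => h1.1 (P.nx_inj h').symm) ?_,
    P.al_ne _ _ _ _ (ne_nx h rfl) e1.symm, P.al_ne _ _ _ _ (ne_nx h2 rfl) e2.symm⟩
  · rw [e2, h1.2.1]
  · rw [e1, h1.2.1]
  · rw [e1, e2, h1.2.1]

variable (P)

/-- The crossings at which the two passes get exchanged. -/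
def sw (μ : S) : Prop := NT P μ ∧ (P.ed (pr P μ)).1 = (P.ed μ).1 ∧
  X (P.al μ true) (P.al (P.nx μ) false) (P.al (pr P μ) true) (P.al (P.nx (pr P μ)) false) ≠ 0

open Classical in
noncomputable def tau (μ : S) : S := if sw P μ then pr P μ else μ

/-- The successor after rerouting. -/
noncomputable def sig (μ : S) : S := P.nx (tau P μ)

variable {P}

theorem sw_pr {μ : S} (h : sw P μ) : sw P (pr P μ) := by
  obtain ⟨h1, h2, h3⟩ := h
  obtain ⟨a1, a2, a3, a4, -, -⟩ := angles h1
  refine ⟨pr_nt h1, ?_, ?_⟩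
  · rw [pr_pr h1, h2]
  · rw [pr_pr h1, X_anti a1 a2 a3 a4]
    exact neg_ne_zero.2 h3

theorem tau_tau (μ : S) : tau P (tau P μ) = μ := by
  unfold tau
  by_cases h : sw P μ
  · rw [if_pos h, if_pos (sw_pr h), pr_pr h.1]
  · rw [if_neg h, if_neg h]

theorem sig_inj : Function.Injective (sig P) := fun a b h => by
  have := P.nx_inj h
  rw [← tau_tau (P := P) a, this, tau_tau]

theorem sig_ed (μ : S) : (P.ed (sig P μ)).1 = (P.ed μ).1 := by
  unfold sig tau
  rw [P.ed_nx]
  split_ifs with h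
  · exact h.2.1
  · rfl

theorem sig_ter (e : Fin m × Fin n) : sig P (P.ter e) = P.ini e := by
  unfold sig tau
  rw [if_neg (fun h => not_nt P e h.1), P.nx_ter]

theorem nd_sig {μ : S} (h : NT P μ) : P.nd (sig P μ) false = P.nd μ true := by
  unfold sig tau
  split_ifs with h'
  · rw [P.nd_nx _ (pr_nt h), (pr_spec h).2.1]
  · exact P.nd_nx _ h

variable (P)

open Classical in
/-- The local pairing of two half segments. -/
noncomputable def K (μ : S) (b : Bool) (ν : S) (b' : Bool) : ℝ :=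
  if P.nd μ b = P.nd ν b' then psi (P.al μ b) (P.al ν b') else 0

theorem formula {μ ν : S} (h : μ ≠ ν) :
    P.th μ (P.nd ν true) - P.th μ (P.nd ν false) - (P.th ν (P.nd μ true) - P.th ν (P.nd μ false)) =
      (K P μ true ν true - K P μ true ν false) - (K P μ false ν true - K P μ false ν false) := by
  have := P.formula μ ν h
  simp only [Fintype.sum_bool, sg, if_true, Bool.false_eq_true, if_false] at this
  unfold K
  split_ifs at this ⊢ <;> linarith

variable {P}

theorem K_zero {μ ν : S} {b b' : Bool} (h : P.nd μ b ≠ P.nd ν b') : K P μ b ν b' = 0 := by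
  unfold K; rw [if_neg h]

theorem K_eq {μ ν : S} {b b' : Bool} (h : P.nd μ b = P.nd ν b') :
    K P μ b ν b' = psi (P.al μ b) (P.al ν b') := by
  unfold K; rw [if_pos h]

theorem transit {μ ν : S} (hμ : NT P μ) (hν : NT P ν) (hne : μ ≠ ν)
    (h : ν = pr P μ → (P.ed ν).1 = (P.ed μ).1) :
    (K P μ true ν true - K P μ true (sig P ν) false) -
      (K P (sig P μ) false ν true - K P (sig P μ) false (sig P ν) false) = 0 := by
  have e1 := nd_sig hμ
  have e2 := nd_sig hν
  by_cases hx : P.nd μ true = P.nd ν true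
  · rcases (pr_spec hμ).2.2 ν hx.symm with h' | h'
    · exact absurd h'.symm hne
    rw [K_eq hx, K_eq (hx.trans e2.symm), K_eq (e1.trans hx), K_eq (e1.trans (hx.trans e2.symm))]
    have h1 := h h'
    subst h'
    obtain ⟨a1, a2, a3, a4, a5, a6⟩ := angles hμ
    unfold sig tau
    by_cases hs : sw P μ
    · rw [if_pos hs, if_pos (sw_pr hs), pr_pr hμ]
      rcases X_or a1 a2 a3 a4 a5 a6 with h2 | h2
      · exact absurd h2 hs.2.2
      · unfold X at h2; linarith
    · have hs' : ¬ sw P (pr P μ) := fun h' => hs (by simpa only [pr_pr hμ] using sw_pr h')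
      rw [if_neg hs, if_neg hs']
      have h2 : X (P.al μ true) (P.al (P.nx μ) false) (P.al (pr P μ) true)
          (P.al (P.nx (pr P μ)) false) = 0 := by
        by_contra h2
        exact hs ⟨hμ, h1, h2⟩
      unfold X at h2; linarith
  · rw [K_zero hx, K_zero (by rwa [e2]), K_zero (by rwa [e1]), K_zero (by rwa [e1, e2])]; ring

end Vale.Agent.P040.Chain
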