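import Vale.Agent.P040.Plan
import Vale.Agent.P040.ChainB

namespace Vale.Agent.P040

namespace Chain

open Finset

variable {m n : ℕ} {S : Type} [Fintype S] (P : Plan m n S)

open Classical in
/-- The rerouted chain ending with the last segment of `e`. -/
noncomputable def C (e : Fin m × Fin n) : Finset S := univ.filter (Ch (sig P) P.ter e)

open Classical in
noncomputable def N (e : Fin m × Fin n) : Finset S :=
  univ.filter (fun μ => Ch (sig P) P.ter e μ ∧ NT P μ)

variable {P}

theorem mem_C {e : Fin m × Fin n} {μ : S} : μ ∈ C P e ↔ Ch (sig P) P.ter e μ := by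
  simp only [C, mem_filter, mem_univ, true_and]

theorem mem_N {e : Fin m × Fin n} {μ : S} : μ ∈ N P e ↔ Ch (sig P) P.ter e μ ∧ NT P μ := by
  simp only [N, mem_filter, mem_univ, true_and]

variable (P)

theorem ex_I (e : Fin m × Fin n) : ∃ e', Ch (sig P) P.ter e (P.ini e') ∧ ∀ F : S → Bool → ℝ,
    ∑ μ ∈ C P e, (F μ true - F μ false) =
      F (P.ter e) true - F (P.ini e') false + ∑ μ ∈ N P e, (F μ true - F (sig P μ) false) := by
  obtain ⟨e', h⟩ := exists_init (sig_inj (P := P)) (ter_inj P) e (C := C P e) (N := N P e)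
    (fun _ => mem_C) (fun _ => by rw [mem_N, nt_iff])
  rw [sig_ter] at h
  exact ⟨e', h⟩

noncomputable def I (e : Fin m × Fin n) : Fin m × Fin n := (ex_I P e).choose

noncomputable def Th (e : Fin m × Fin n) (w : ℂ) : ℝ := ∑ μ ∈ C P e, P.th μ w

variable {P}

omit [Fintype S] in
theorem ch_ed {e : Fin m × Fin n} {μ : S} (h : Ch (sig P) P.ter e μ) : (P.ed μ).1 = e.1 := by
  have := Ch.inv (φ := fun μ => (P.ed μ).1) sig_ed h
  simpa only [P.ed_ter] using this

theorem I_ch (e : Fin m × Fin n) : Ch (sig P) P.ter e (P.ini (I P e)) := by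
  exact (ex_I P e).choose_spec.1

theorem nd_I (e : Fin m × Fin n) : P.nd (P.ini (I P e)) false = P.A e.1 := by
  have := ch_ed (I_ch (P := P) e)
  rw [P.ed_ini] at this
  rw [P.nd_ini, this]

theorem sum_C (e : Fin m × Fin n) (F : S → Bool → ℝ) :
    ∑ μ ∈ C P e, (F μ true - F μ false) =
      F (P.ter e) true - F (P.ini (I P e)) false +
        ∑ μ ∈ N P e, (F μ true - F (sig P μ) false) := by
  exact (ex_I P e).choose_spec.2 F

theorem sum_nd (e : Fin m × Fin n) (G : ℂ → ℝ) :
    ∑ μ ∈ C P e, (G (P.nd μ true) - G (P.nd μ false)) = G (P.B e.2) - G (P.A e.1) := by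
  rw [sum_C e (fun μ b => G (P.nd μ b)), P.nd_ter, nd_I, sum_eq_zero, add_zero]
  intro μ hμ
  rw [nd_sig (mem_N.1 hμ).2, sub_self]

theorem pairing {e e' : Fin m × Fin n} (hne : e ≠ e') (h2 : e.2 ≠ e'.2)
    (hW : ∀ μ ∈ N P e, pr P μ ∈ N P e' → e'.1 = e.1) :
    Th P e (P.B e'.2) - Th P e (P.A e'.1) - (Th P e' (P.B e.2) - Th P e' (P.A e.1)) =
      K P (P.ini (I P e)) false (P.ini (I P e')) false := by
  have hd : ∀ μ ∈ C P e, ∀ ν ∈ C P e', μ ≠ ν := by
    rintro μ hμ ν hν rfl
    exact hne ((mem_C.1 hμ).uniq (ter_inj P) (mem_C.1 hν))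
  have hL1 : Th P e (P.B e'.2) - Th P e (P.A e'.1) =
      ∑ μ ∈ C P e, ∑ ν ∈ C P e', (P.th μ (P.nd ν true) - P.th μ (P.nd ν false)) := by
    unfold Th
    rw [← sum_sub_distrib]
    exact sum_congr rfl fun μ _ => (sum_nd e' (P.th μ)).symm
  have hL2 : Th P e' (P.B e.2) - Th P e' (P.A e.1) =
      ∑ μ ∈ C P e, ∑ ν ∈ C P e', (P.th ν (P.nd μ true) - P.th ν (P.nd μ false)) := by
    unfold Th
    rw [← sum_sub_distrib, sum_comm]
    exact sum_congr rfl fun ν _ => (sum_nd e (P.th ν)).symm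
  let G : S → Bool → ℝ := fun μ b => ∑ ν ∈ C P e', (K P μ b ν true - K P μ b ν false)
  have hG : ∀ μ b, G μ b = K P μ b (P.ter e') true - K P μ b (P.ini (I P e')) false +
      ∑ ν ∈ N P e', (K P μ b ν true - K P μ b (sig P ν) false) :=
    fun μ b => sum_C e' (K P μ b)
  have hAB : ∀ i j, P.A i ≠ P.B j := P.A_ne_B
  have hout : ∀ μ b, P.nd μ b ∉ P.Cr →
      ∑ ν ∈ N P e', (K P μ b ν true - K P μ b (sig P ν) false) = 0 := by
    intro μ b hb
    refine sum_eq_zero fun ν hν => ?_
    have h1 := (mem_N.1 hν).2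
    have h3 : P.nd μ b ≠ P.nd ν true := fun h => hb (h ▸ P.nd_mem ν h1)
    rw [K_zero h3, K_zero (by rwa [nd_sig h1]), sub_self]
  have hin : ∀ μ b, P.nd μ b ∈ P.Cr →
      G μ b = ∑ ν ∈ N P e', (K P μ b ν true - K P μ b (sig P ν) false) := by
    intro μ b hb
    rw [hG, K_zero, K_zero, sub_self, zero_add]
    · rw [nd_I]; intro h; exact P.A_nm _ (h ▸ hb)
    · rw [P.nd_ter]; intro h; exact P.B_nm _ (h ▸ hb)
  have hT : G (P.ter e) true = 0 := by
    rw [hG, hout _ _ (by rw [P.nd_ter]; exact P.B_nm _), K_zero, K_zero]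
    · ring
    · rw [P.nd_ter, nd_I]; exact (hAB _ _).symm
    · rw [P.nd_ter, P.nd_ter]; exact fun h => h2 (P.B_inj h)
  have hI : G (P.ini (I P e)) false = - K P (P.ini (I P e)) false (P.ini (I P e')) false := by
    rw [hG, hout _ _ (by rw [nd_I]; exact P.A_nm _), K_zero]
    · ring
    · rw [P.nd_ter, nd_I]; exact hAB _ _
  have hN : ∑ μ ∈ N P e, (G μ true - G (sig P μ) false) = 0 := by
    refine sum_eq_zero fun μ hμ => ?_
    have h1 := mem_N.1 hμ
    have h3 := P.nd_mem μ h1.2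
    rw [hin _ _ h3, hin _ _ (by rwa [nd_sig h1.2]), ← sum_sub_distrib]
    refine sum_eq_zero fun ν hν => ?_
    have h4 := mem_N.1 hν
    refine transit h1.2 h4.2 (hd μ (mem_C.2 h1.1) ν (mem_C.2 h4.1)) fun h => ?_
    rw [ch_ed h4.1, ch_ed h1.1]
    exact hW μ hμ (h ▸ hν)
  have hR : ∑ μ ∈ C P e, (G μ true - G μ false) =
      K P (P.ini (I P e)) false (P.ini (I P e')) false := by
    rw [sum_C e G, hT, hI, hN]; ring
  rw [hL1, hL2, ← hR, ← sum_sub_distrib]
  refine sum_congr rfl fun μ hμ => ?_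
  rw [← sum_sub_distrib, ← sum_sub_distrib]
  exact sum_congr rfl fun ν hν => formula P (hd μ hμ ν hν)

variable (P)

open Classical in
noncomputable def dest (μ : S) : Fin m × Fin n :=
  if h : ∃ e, Ch (sig P) P.ter e μ then h.choose else P.ed μ

open Classical in
noncomputable def Bad (a b : Fin m) : Finset (Fin n × Fin n) :=
  (univ.filter (fun μ => NT P μ ∧ ((P.ed μ).1, (P.ed (pr P μ)).1) = (a, b))).image
    (fun μ => ((dest P μ).2, (dest P (pr P μ)).2))

variable {P}

omit [Fintype S] in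
theorem dest_eq {e : Fin m × Fin n} {μ : S} (h : Ch (sig P) P.ter e μ) : dest P μ = e := by
  unfold dest
  have h' : ∃ e, Ch (sig P) P.ter e μ := ⟨e, h⟩
  rw [dif_pos h']
  exact h'.choose_spec.uniq (ter_inj P) h

theorem count_bad : ∑ a, ∑ b, (Bad P a b).card ≤ 2 * P.Cr.card := by
  classical
  have h1 : ∑ a, ∑ b, (Bad P a b).card ≤ (univ.filter (NT P)).card := by
    rw [← sum_product', card_eq_sum_card_fiberwise
      (f := fun μ => ((P.ed μ).1, (P.ed (pr P μ)).1)) (t := univ ×ˢ univ) (fun _ _ => by simp)]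
    refine sum_le_sum fun p _ => ?_
    unfold Bad
    refine card_image_le.trans (le_of_eq ?_)
    rw [filter_filter]
  refine h1.trans ?_
  refine card_le_mul_card_image_of_maps_to (f := fun μ => P.nd μ true) (t := P.Cr)
    (s := univ.filter (NT P)) (fun μ hμ => ?_) 2 fun x _ => ?_
  · exact P.nd_mem μ (mem_filter.1 hμ).2
  rcases (filter (fun μ => P.nd μ true = x) (univ.filter (NT P))).eq_empty_or_nonempty with h | h
  · rw [h]; simp
  · obtain ⟨μ, hμ⟩ := h
    simp only [mem_filter, mem_univ, true_and] at hμ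
    refine (card_le_card (t := {μ, pr P μ}) fun ρ hρ => ?_).trans card_le_two
    simp only [mem_filter, mem_univ, true_and] at hρ
    rw [mem_insert, mem_singleton]
    exact (pr_spec hμ.1).2.2 ρ (hρ.2.trans hμ.2.symm)

end Chain

open Chain in
theorem exists_data {m n : ℕ} {S : Type} [Fintype S] (P : Plan m n S) :
    Nonempty (Data m n P.Cr.card) := by
  classical
  have hpi : (2 * Real.pi) ≠ 0 := by positivity
  refine ⟨⟨fun a i j => Th P (a, i) (P.B j) / (2 * Real.pi), Bad P, ?_, ?_, count_bad⟩⟩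
  · intro a b hab
    refine ⟨fun i => Th P (a, i) (P.A b) / (2 * Real.pi),
      fun j => - Th P (b, j) (P.A a) / (2 * Real.pi), fun i j hij hB => ?_⟩
    have h := pairing (P := P) (e := (a, i)) (e' := (b, j)) (fun h => hab (congrArg Prod.fst h)) hij
      (fun μ hμ hν => by
        exfalso
        apply hB
        have h1 := mem_N.1 hμ
        have h2 := mem_N.1 hν
        refine Finset.mem_image.2 ⟨μ, ?_, ?_⟩
        · simp only [Finset.mem_filter, Finset.mem_univ, true_and]
          exact ⟨h1.2, by rw [ch_ed h1.1, ch_ed h2.1]⟩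
        · rw [dest_eq h1.1, dest_eq h2.1])
    rw [K_zero (by rw [nd_I, nd_I]; exact fun h => hab (P.A_inj h))] at h
    simp only at h
    field_simp
    linarith
  · intro a
    have hI : ∀ i j : Fin n, i ≠ j → P.ini (I P (a, i)) ≠ P.ini (I P (a, j)) := by
      intro i j hij h
      have h1 := I_ch (P := P) (a, i)
      rw [h] at h1
      exact hij (congrArg Prod.snd (h1.uniq (ter_inj P) (I_ch (a, j))))
    refine ⟨fun i => P.al (P.ini (I P (a, i))) false,
      fun i => (Th P (a, i) (P.A a) + P.al (P.ini (I P (a, i))) false - Real.pi) / (2 * Real.pi),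
      fun j => (- Th P (a, j) (P.A a) - P.al (P.ini (I P (a, j))) false) / (2 * Real.pi),
      fun i j h => ?_, fun i j hij => ?_⟩
    · by_contra hij
      exact P.al_ne _ _ _ _ (hI i j hij) (by rw [nd_I, nd_I]) h
    · have h := pairing (P := P) (e := (a, i)) (e' := (a, j))
        (fun h => hij (congrArg Prod.snd h)) hij (fun _ _ _ => rfl)
      rw [K_eq (by rw [nd_I, nd_I])] at h
      unfold psi at h
      simp only at h ⊢
      split_ifs at h ⊢ <;> field_simp <;> linarith

end Vale.Agent.P040
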