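import Vale.Agent.P040.Defs
import Vale.Agent.P040.Plan

namespace Vale.Agent.P040

namespace Cut

open Set

theorem exists_up (T : Finset ℝ) (h1 : (1 : ℝ) ∈ T) (t : ℝ) :
    ∃ u, t < 1 → t < u ∧ u ∈ T ∧ ∀ v ∈ T, t < v → u ≤ v := by
  classical
  by_cases ht : t < 1
  · have hn : (T.filter (t < ·)).Nonempty := ⟨1, Finset.mem_filter.2 ⟨h1, ht⟩⟩
    have hm := Finset.mem_filter.1 (Finset.min'_mem _ hn)
    exact ⟨_, fun _ => ⟨hm.2, hm.1, fun v hv htv =>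
      Finset.min'_le _ _ (Finset.mem_filter.2 ⟨hv, htv⟩)⟩⟩
  · exact ⟨0, fun h => absurd h ht⟩

theorem exists_down (T : Finset ℝ) (h0 : (0 : ℝ) ∈ T) {u : ℝ} (hu : 0 < u) :
    ∃ t ∈ T, t < u ∧ ∀ v ∈ T, v < u → v ≤ t := by
  classical
  have hn : (T.filter (· < u)).Nonempty := ⟨0, Finset.mem_filter.2 ⟨h0, hu⟩⟩
  have hm := Finset.mem_filter.1 (Finset.max'_mem _ hn)
  exact ⟨_, hm.1, hm.2, fun v hv htv => Finset.le_max' _ _ (Finset.mem_filter.2 ⟨hv, htv⟩)⟩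

theorem exists_eps {V : Set ℂ} (hV : V.Finite) :
    ∃ ε > 0, ∀ p ∈ V, ∀ q ∈ V, p ≠ q → 2 * ε < ‖p - q‖ := by
  have h : ∀ᶠ ε in nhdsWithin (0 : ℝ) (Ioi 0), ∀ p ∈ V, ∀ q ∈ V, p ≠ q → 2 * ε < ‖p - q‖ := by
    refine (Filter.eventually_all_finite hV).2 fun p _ =>
      (Filter.eventually_all_finite hV).2 fun q _ => ?_
    by_cases hpq : p = q
    · exact Filter.Eventually.of_forall fun _ h => absurd hpq h
    · have : 0 < ‖p - q‖ / 2 := half_pos (norm_pos_iff.2 (sub_ne_zero.2 hpq))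
      filter_upwards [Ioo_mem_nhdsGT this] with ε hε _
      linarith [hε.2]
  obtain ⟨ε, h1, h2⟩ := (h.and self_mem_nhdsWithin).exists
  exact ⟨ε, h2, h1⟩

variable {m n : ℕ} (D : Drawing m n)

/-- The arc of `e` as a curve on the real line. -/
noncomputable def g (e : Fin m × Fin n) (x : ℝ) : ℂ := D.arc e (projIcc 0 1 zero_le_one x)

theorem g_cont (e : Fin m × Fin n) : Continuous (g D e) :=
  (D.arc e).continuous.comp continuous_projIcc

theorem g_inj (e : Fin m × Fin n) : InjOn (g D e) (Icc 0 1) := by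
  intro x hx y hy h
  have := D.arc_inj e h
  rw [projIcc_of_mem _ hx, projIcc_of_mem _ hy] at this
  exact congrArg Subtype.val this

theorem g_zero (e : Fin m × Fin n) : g D e 0 = D.A e.1 := by
  rw [← D.src e, g, projIcc_left]; rfl

theorem g_one (e : Fin m × Fin n) : g D e 1 = D.B e.2 := by
  rw [← D.tgt e, g, projIcc_right]; rfl

theorem mem_inner {e : Fin m × Fin n} {p : ℂ} :
    p ∈ inner (D.arc e) ↔ ∃ x ∈ Ioo (0 : ℝ) 1, g D e x = p := by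
  constructor
  · rintro ⟨x, hx, rfl⟩
    exact ⟨x, ⟨hx.1, hx.2⟩, by rw [g, projIcc_val]⟩
  · rintro ⟨x, hx, rfl⟩
    refine ⟨_, ?_, rfl⟩
    rw [projIcc_of_mem _ (Ioo_subset_Icc_self hx)]
    exact ⟨hx.1, hx.2⟩

theorem T_fin (e : Fin m × Fin n) :
    {t | t ∈ Icc (0 : ℝ) 1 ∧ (t = 0 ∨ t = 1 ∨ g D e t ∈ crossPts D.arc)}.Finite := by
  have h : (Icc (0 : ℝ) 1 ∩ g D e ⁻¹' crossPts D.arc).Finite :=
    Set.Finite.of_finite_image (f := g D e)
      (D.finite.subset (by rintro _ ⟨x, hx, rfl⟩; exact hx.2)) ((g_inj D e).mono inter_subset_left)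
  refine ((h.insert 1).insert 0).subset ?_
  rintro t ⟨h1, h2 | h2 | h2⟩
  · exact Or.inl h2
  · exact Or.inr (Or.inl h2)
  · exact Or.inr (Or.inr ⟨h1, h2⟩)

/-- The cut parameters on the arc of `e`. -/
noncomputable def T (e : Fin m × Fin n) : Finset ℝ := (T_fin D e).toFinset

theorem mem_T {e : Fin m × Fin n} {t : ℝ} :
    t ∈ T D e ↔ t ∈ Icc (0 : ℝ) 1 ∧ (t = 0 ∨ t = 1 ∨ g D e t ∈ crossPts D.arc) :=
  (T_fin D e).mem_toFinset

theorem zero_mem (e : Fin m × Fin n) : (0 : ℝ) ∈ T D e :=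
  (mem_T D).2 ⟨left_mem_Icc.2 zero_le_one, Or.inl rfl⟩

theorem one_mem (e : Fin m × Fin n) : (1 : ℝ) ∈ T D e :=
  (mem_T D).2 ⟨right_mem_Icc.2 zero_le_one, Or.inr (Or.inl rfl)⟩

theorem mem_T_of_eq {e f : Fin m × Fin n} (hef : e ≠ f) {x y : ℝ} (hx : x ∈ Icc (0 : ℝ) 1)
    (hy : y ∈ Icc (0 : ℝ) 1) (h : g D e x = g D f y) : x ∈ T D e := by
  refine (mem_T D).2 ⟨hx, ?_⟩
  rcases hx.1.eq_or_lt with h0 | h0
  · exact Or.inl h0.symm
  rcases hx.2.eq_or_lt with h1 | h1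
  · exact Or.inr (Or.inl h1)
  have hi : g D e x ∈ inner (D.arc e) := (mem_inner D).2 ⟨x, ⟨h0, h1⟩, rfl⟩
  rcases hy.1.eq_or_lt with k0 | k0
  · rw [h, ← k0, g_zero] at hi; exact absurd hi (D.avoidA _ _)
  rcases hy.2.eq_or_lt with k1 | k1
  · rw [h, k1, g_one] at hi; exact absurd hi (D.avoidB _ _)
  exact Or.inr (Or.inr ⟨e, f, hef, hi, (mem_inner D).2 ⟨y, ⟨k0, k1⟩, h.symm⟩⟩)

/-- The segments. -/
abbrev S : Type := {p : (Fin m × Fin n) × ℝ // p.2 ∈ T D p.1 ∧ p.2 < 1}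

theorem S_fin : Finite (S D) := by
  have : {p : (Fin m × Fin n) × ℝ | p.2 ∈ T D p.1 ∧ p.2 < 1}.Finite := by
    refine (Set.finite_iUnion fun e : Fin m × Fin n =>
      (T D e).finite_toSet.image (fun t => (e, t))).subset ?_
    rintro ⟨e, t⟩ h
    exact mem_iUnion.2 ⟨e, t, h.1, rfl⟩
  exact this

/-- The end parameter of a segment. -/
noncomputable def up (μ : S D) : ℝ := (exists_up (T D μ.1.1) (one_mem D _) μ.1.2).choose

variable {D}

theorem up_spec (μ : S D) :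
    μ.1.2 < up D μ ∧ up D μ ∈ T D μ.1.1 ∧ ∀ v ∈ T D μ.1.1, μ.1.2 < v → up D μ ≤ v :=
  (exists_up (T D μ.1.1) (one_mem D _) μ.1.2).choose_spec μ.2.2

theorem lo_mem (μ : S D) : μ.1.2 ∈ Icc (0 : ℝ) 1 := ((mem_T D).1 μ.2.1).1

theorem up_mem (μ : S D) : up D μ ∈ Icc (0 : ℝ) 1 := ((mem_T D).1 (up_spec μ).2.1).1

theorem up_pos (μ : S D) : 0 < up D μ := (lo_mem μ).1.trans_lt (up_spec μ).1

theorem up_le {μ ν : S D} (he : μ.1.1 = ν.1.1) (h : μ.1.2 < ν.1.2) : up D μ ≤ ν.1.2 :=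
  (up_spec μ).2.2 _ (he ▸ ν.2.1) h

theorem up_inj {μ ν : S D} (he : μ.1.1 = ν.1.1) (h : up D μ = up D ν) : μ = ν := by
  refine Subtype.ext (Prod.ext he ?_)
  rcases lt_trichotomy μ.1.2 ν.1.2 with h1 | h1 | h1
  · linarith [up_le he h1, (up_spec ν).1]
  · exact h1
  · linarith [up_le he.symm h1, (up_spec μ).1]

theorem exists_below {e : Fin m × Fin n} {u : ℝ} (hu : u ∈ T D e) (h0 : 0 < u) :
    ∃ ν : S D, ν.1.1 = e ∧ up D ν = u := by
  obtain ⟨t, h1, h2, h3⟩ := exists_down (T D e) (zero_mem D e) h0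
  let ν : S D := ⟨(e, t), h1, h2.trans_le ((mem_T D).1 hu).1.2⟩
  refine ⟨ν, rfl, le_antisymm ((up_spec ν).2.2 u hu h2) ?_⟩
  by_contra h
  exact absurd (h3 _ (up_spec ν).2.1 (not_le.1 h)) (not_le.2 (up_spec ν).1)

theorem ends {μ : S D} {x : ℝ} (hx : x ∈ Icc μ.1.2 (up D μ)) (hT : x ∈ T D μ.1.1) :
    x = μ.1.2 ∨ x = up D μ := by
  rcases hx.1.eq_or_lt with h | h
  · exact Or.inl h.symm
  · exact Or.inr (le_antisymm hx.2 ((up_spec μ).2.2 x hT h))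

theorem meet {μ ν : S D} (hne : μ ≠ ν) {x y : ℝ} (hx : x ∈ Icc μ.1.2 (up D μ))
    (hy : y ∈ Icc ν.1.2 (up D ν)) (h : g D μ.1.1 x = g D ν.1.1 y) :
    (x = μ.1.2 ∨ x = up D μ) ∧ (y = ν.1.2 ∨ y = up D ν) := by
  have hx' : x ∈ Icc (0 : ℝ) 1 := ⟨(lo_mem μ).1.trans hx.1, hx.2.trans (up_mem μ).2⟩
  have hy' : y ∈ Icc (0 : ℝ) 1 := ⟨(lo_mem ν).1.trans hy.1, hy.2.trans (up_mem ν).2⟩
  by_cases he : μ.1.1 = ν.1.1
  · rw [← he] at h
    have hxy := g_inj D _ hx' hy' h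
    rcases lt_trichotomy μ.1.2 ν.1.2 with h1 | h1 | h1
    · have := up_le he h1
      exact ⟨Or.inr (by linarith [hx.2, hy.1]), Or.inl (by linarith [hx.2, hy.1])⟩
    · exact absurd (Subtype.ext (Prod.ext he h1)) hne
    · have := up_le he.symm h1
      exact ⟨Or.inl (by linarith [hx.1, hy.2]), Or.inr (by linarith [hx.1, hy.2])⟩
  · exact ⟨ends hx (mem_T_of_eq D he hx' hy' h), ends hy (mem_T_of_eq D (Ne.symm he) hy' hx' h.symm)⟩

variable (D)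

def ini (e : Fin m × Fin n) : S D := ⟨(e, 0), zero_mem D e, zero_lt_one⟩

noncomputable def ter (e : Fin m × Fin n) : S D := (exists_below (one_mem D e) zero_lt_one).choose

theorem ter_spec (e : Fin m × Fin n) : (ter D e).1.1 = e ∧ up D (ter D e) = 1 :=
  (exists_below (one_mem D e) zero_lt_one).choose_spec

noncomputable def nx (μ : S D) : S D :=
  if h : up D μ < 1 then ⟨(μ.1.1, up D μ), (up_spec μ).2.1, h⟩ else ini D μ.1.1

variable {D}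

theorem up_lt {μ : S D} (h : μ ≠ ter D μ.1.1) : up D μ < 1 :=
  lt_of_le_of_ne (up_mem μ).2 fun h1 =>
    h (up_inj (ter_spec D _).1.symm (h1.trans (ter_spec D _).2.symm))

theorem nx_ed (μ : S D) : (nx D μ).1.1 = μ.1.1 := by
  unfold nx; split_ifs <;> rfl

theorem nx_inj : Function.Injective (nx D) := by
  intro μ ν h
  have he : μ.1.1 = ν.1.1 := by rw [← nx_ed μ, h, nx_ed]
  have h2 := congrArg (fun ρ : S D => ρ.1.2) h
  refine up_inj he ?_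
  unfold nx at h2
  split_ifs at h2 with a b b
  · exact h2
  · exact absurd h2 (up_pos μ).ne'
  · exact absurd h2 (up_pos ν).ne
  · linarith [(up_mem μ).2, (up_mem ν).2]

theorem cr_of_lt {μ : S D} (h : up D μ < 1) : g D μ.1.1 (up D μ) ∈ crossPts D.arc := by
  rcases ((mem_T D).1 (up_spec μ).2.1).2 with h1 | h1 | h1
  · exact absurd h1 (up_pos μ).ne'
  · exact absurd h1 h.ne
  · exact h1

theorem par {μ : S D} (h : up D μ < 1) : ∃ ν : S D, ν ≠ μ ∧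
    g D ν.1.1 (up D ν) = g D μ.1.1 (up D μ) ∧
    ∀ ρ : S D, g D ρ.1.1 (up D ρ) = g D μ.1.1 (up D μ) → ρ = μ ∨ ρ = ν := by
  have hi : g D μ.1.1 (up D μ) ∈ inner (D.arc μ.1.1) := (mem_inner D).2 ⟨_, ⟨up_pos μ, h⟩, rfl⟩
  obtain ⟨f, hf, hp⟩ : ∃ f, f ≠ μ.1.1 ∧ g D μ.1.1 (up D μ) ∈ inner (D.arc f) := by
    obtain ⟨e1, e2, h1, h2, h3⟩ := cr_of_lt h
    by_cases h4 : e1 = μ.1.1
    · exact ⟨e2, fun h5 => h1 (h4.trans h5.symm), h3⟩
    · exact ⟨e1, h4, h2⟩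
  obtain ⟨v, hv, hv'⟩ := (mem_inner D).1 hp
  obtain ⟨ν, h1, h2⟩ := exists_below
    (mem_T_of_eq D hf (Ioo_subset_Icc_self hv) (up_mem μ) hv') hv.1
  have h3 : g D ν.1.1 (up D ν) = g D μ.1.1 (up D μ) := by rw [h1, h2, hv']
  refine ⟨ν, fun h4 => hf (by rw [← h1, h4]), h3, fun ρ hρ => ?_⟩
  have h5 : up D ρ < 1 := lt_of_le_of_ne (up_mem ρ).2 fun h6 => by
    rw [← hρ, h6, g_one] at hi
    exact D.avoidB _ _ hi
  rcases D.two _ _ _ _ hi hp ((mem_inner D).2 ⟨_, ⟨up_pos ρ, h5⟩, hρ⟩) with h6 | h6 | h6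
  · exact absurd h6.symm hf
  · left
    rw [h6] at hρ
    exact up_inj h6.symm (g_inj D _ (up_mem ρ) (up_mem μ) hρ)
  · right
    rw [← h3, h1, h6] at hρ
    exact up_inj (h1.trans h6).symm (g_inj D _ (up_mem ρ) (up_mem ν) hρ)

theorem exists_segs : ∃ ε > 0, ∀ μ : S D,
    ∃ P : Seg ε, P.g = g D μ.1.1 ∧ P.s0 = μ.1.2 ∧ P.s3 = up D μ := by
  obtain ⟨ε, hε, h⟩ := exists_eps
    ((D.finite.union (finite_range D.A)).union (finite_range D.B))
  have hV : ∀ e, ∀ t ∈ T D e, g D e t ∈ crossPts D.arc ∪ range D.A ∪ range D.B := by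
    intro e t ht
    rcases ((mem_T D).1 ht).2 with h1 | h1 | h1
    · rw [h1, g_zero]; exact Or.inl (Or.inr ⟨_, rfl⟩)
    · rw [h1, g_one]; exact Or.inr ⟨_, rfl⟩
    · exact Or.inl (Or.inl h1)
  refine ⟨ε, hε, fun μ => Seg.exists_seg hε (g_cont D _) (up_spec μ).1 ?_⟩
  exact h _ (hV _ _ (up_spec μ).2.1) _ (hV _ _ μ.2.1) fun h1 =>
    (up_spec μ).1.ne' (g_inj D _ (up_mem μ) (lo_mem μ) h1)

end Cut

open Cut in
theorem exists_plan {m n : ℕ} (D : Drawing m n) :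
    ∃ (S : Type) (_ : Fintype S) (P : Plan m n S), P.Cr.card = D.crossings := by
  obtain ⟨ε, hε, h⟩ := exists_segs (D := D)
  choose P h1 h2 h3 using h
  have := S_fin D
  have nT : ∀ μ, (P μ).nd true = g D μ.1.1 (up D μ) := fun μ => by
    simp only [Seg.nd, if_true, h1, h3]
  have nF : ∀ μ, (P μ).nd false = g D μ.1.1 μ.1.2 := fun μ => by
    simp only [Seg.nd, Bool.false_eq_true, if_false, h1, h2]
  have hM : ∀ μ ν, μ ≠ ν → (P μ).Meet (P ν) := fun μ ν hne x hx y hy hxy => by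
    rw [h2, h3] at hx hy
    rw [h1, h1] at hxy
    rw [h2, h3, h2, h3]
    exact meet hne hx hy hxy
  refine ⟨S D, Fintype.ofFinite _,
    { A := D.A, B := D.B, Cr := D.finite.toFinset, A_inj := D.A_inj, B_inj := D.B_inj
      A_ne_B := D.A_ne_B, A_nm := ?_, B_nm := ?_, ed := fun μ => μ.1.1, ini := ini D
      ter := ter D, nx := nx D, nd := fun μ => (P μ).nd, al := fun μ => (P μ).al
      th := fun μ => (P μ).th, ed_ini := fun _ => rfl, ed_ter := fun e => (ter_spec D e).1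
      ed_nx := nx_ed, nx_inj := nx_inj, nx_ter := ?_, nd_ini := ?_, nd_ter := ?_, nd_nx := ?_
      nd_mem := ?_, nd_ne := ?_, par := ?_
      al_ne := fun μ ν b b' hne hb => Seg.al_ne hε (hM μ ν hne) hb
      formula := fun μ ν hne => Seg.formula hε (hM μ ν hne) }, ?_⟩
  · intro i hi
    obtain ⟨e, -, -, h4, -⟩ := D.finite.mem_toFinset.1 hi
    exact D.avoidA _ _ h4
  · intro j hj
    obtain ⟨e, -, -, h4, -⟩ := D.finite.mem_toFinset.1 hj
    exact D.avoidB _ _ h4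
  · intro e
    unfold nx
    rw [dif_neg (ter_spec D e).2.not_lt, (ter_spec D e).1]
  · intro e
    rw [nF]; exact g_zero D e
  · intro e
    rw [nT, (ter_spec D e).2, (ter_spec D e).1, g_one]
  · intro μ hμ
    rw [nF, nT]
    unfold nx
    rw [dif_pos (up_lt hμ)]
  · intro μ hμ
    rw [nT]
    exact D.finite.mem_toFinset.2 (cr_of_lt (up_lt hμ))
  · intro μ h4
    rw [nF, nT] at h4
    exact (up_spec μ).1.ne (g_inj D _ (lo_mem μ) (up_mem μ) h4)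
  · intro μ hμ
    simp only [nT]
    exact par (up_lt hμ)
  · exact (Set.ncard_eq_toFinset_card _ D.finite).symm

end Vale.Agent.P040
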