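import Mathlib

namespace Vale.Agent.P040

open Set

/-- The interior of an arc. -/
def inner (γ : C(unitInterval, ℂ)) : Set ℂ := γ '' Ioo 0 1

/-- The arcs cross properly at `p`: a local homeomorphism of the plane sends `p` to `0`,
the first arc to the real axis and the second arc to the imaginary axis. -/
def ProperAt (γ δ : C(unitInterval, ℂ)) (p : ℂ) : Prop :=
  ∃ φ : OpenPartialHomeomorph ℂ ℂ, p ∈ φ.source ∧ φ p = 0 ∧
    ∀ z ∈ φ.source, (z ∈ range γ ↔ (φ z).im = 0) ∧ (z ∈ range δ ↔ (φ z).re = 0)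

/-- The points lying in the interiors of two different arcs. -/
def crossPts {E : Type} (arc : E → C(unitInterval, ℂ)) : Set ℂ :=
  {p | ∃ e f, e ≠ f ∧ p ∈ inner (arc e) ∧ p ∈ inner (arc f)}

/-- A drawing of the complete bipartite graph `K_{m,n}` in the plane `ℂ`. -/
structure Drawing (m n : ℕ) where
  A : Fin m → ℂ
  B : Fin n → ℂ
  A_inj : Function.Injective A
  B_inj : Function.Injective B
  A_ne_B : ∀ i j, A i ≠ B j
  arc : Fin m × Fin n → C(unitInterval, ℂ)
  arc_inj : ∀ e, Function.Injective (arc e)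
  src : ∀ e, arc e 0 = A e.1
  tgt : ∀ e, arc e 1 = B e.2
  avoidA : ∀ e i, A i ∉ inner (arc e)
  avoidB : ∀ e j, B j ∉ inner (arc e)
  finite : (crossPts arc).Finite
  two : ∀ e f g p, p ∈ inner (arc e) → p ∈ inner (arc f) → p ∈ inner (arc g) →
    e = f ∨ e = g ∨ f = g
  proper : ∀ e f p, e ≠ f → p ∈ inner (arc e) → p ∈ inner (arc f) → ProperAt (arc e) (arc f) p

/-- The number of crossing points of a drawing. -/
noncomputable def Drawing.crossings {m n : ℕ} (D : Drawing m n) : ℕ := (crossPts D.arc).ncard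

/-- `d r = ⌊r/2⌋ ⌊(r-1)/2⌋`. -/
def d (r : ℕ) : ℕ := (r / 2) * ((r - 1) / 2)

end Vale.Agent.P040
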