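import Vale.Agent.P040.Ang

namespace Vale.Agent.P040

open Set Complex

/-- A piece `[s0,s3]` of a curve with two legs `[s0,s1]`, `[s2,s3]` of radius `ε`. -/
structure Seg (ε : ℝ) where
  g : ℝ → ℂ
  cont : Continuous g
  s0 : ℝ
  s1 : ℝ
  s2 : ℝ
  s3 : ℝ
  h01 : s0 < s1
  h12 : s1 < s2
  h23 : s2 < s3
  in0 : ∀ x ∈ Icc s0 s1, ‖g x - g s0‖ ≤ ε
  on0 : ‖g s1 - g s0‖ = ε
  in3 : ∀ x ∈ Icc s2 s3, ‖g x - g s3‖ ≤ ε
  on3 : ‖g s2 - g s3‖ = ε

def sg (b : Bool) : ℝ := if b then 1 else -1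

namespace Seg

variable {ε : ℝ}

def nd (P : Seg ε) (b : Bool) : ℂ := if b then P.g P.s3 else P.g P.s0

noncomputable def al (P : Seg ε) (b : Bool) : ℝ :=
  if b then arg (P.g P.s2 - P.g P.s3) else arg (P.g P.s1 - P.g P.s0)

noncomputable def th (P : Seg ε) (w : ℂ) : ℝ :=
  ang (fun x => P.g x - w) P.s0 P.s1 + ang (fun x => P.g x - w) P.s1 P.s2 +
    ang (fun x => P.g x - w) P.s2 P.s3

/-- The two pieces meet at most in end points. -/
def Meet (P Q : Seg ε) : Prop :=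
  ∀ x ∈ Icc P.s0 P.s3, ∀ y ∈ Icc Q.s0 Q.s3, P.g x = Q.g y →
    (x = P.s0 ∨ x = P.s3) ∧ (y = Q.s0 ∨ y = Q.s3)

theorem Meet.symm {P Q : Seg ε} (h : P.Meet Q) : Q.Meet P :=
  fun x hx y hy hxy => (h y hy x hx hxy.symm).symm

theorem Meet.ne_right {P Q : Seg ε} (h : P.Meet Q) {x y : ℝ} (hx : P.s0 ≤ x) (hx' : x ≤ P.s3)
    (hy : Q.s0 < y) (hy' : y < Q.s3) : P.g x ≠ Q.g y := fun hxy => by
  rcases (h x ⟨hx, hx'⟩ y ⟨hy.le, hy'.le⟩ hxy).2 with h | h <;> linarith

theorem al_ne (hε : 0 < ε) {P Q : Seg ε} (h : P.Meet Q) {b b' : Bool}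
    (hb : P.nd b = Q.nd b') : P.al b ≠ Q.al b' := by
  have p1 := P.h01; have p2 := P.h12; have p3 := P.h23
  have q1 := Q.h01; have q2 := Q.h12; have q3 := Q.h23
  cases b <;> cases b' <;> simp only [nd, al, if_true, Bool.false_eq_true, if_false] at hb ⊢
  · rw [← hb]
    exact (arg_psi hε P.on0 (hb ▸ Q.on0)
      (h.ne_right (by linarith) (by linarith) (by linarith) (by linarith))).1
  · rw [← hb]
    exact (arg_psi hε P.on0 (hb ▸ Q.on3)
      (h.ne_right (by linarith) (by linarith) (by linarith) (by linarith))).1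
  · rw [← hb]
    exact (arg_psi hε P.on3 (hb ▸ Q.on0)
      (h.ne_right (by linarith) (by linarith) (by linarith) (by linarith))).1
  · rw [← hb]
    exact (arg_psi hε P.on3 (hb ▸ Q.on3)
      (h.ne_right (by linarith) (by linarith) (by linarith) (by linarith))).1

theorem leg0 (hε : 0 < ε) (P : Seg ε) {w : ℂ} (hw : ‖w - P.g P.s0‖ = ε)
    (hne : ∀ x ∈ Icc P.s0 P.s1, P.g x ≠ w) :
    ang (fun x => P.g x - w) P.s0 P.s1 = arg ((P.g P.s1 - w) / (P.g P.s0 - w)) := by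
  rw [ang_disc P.cont P.h01.le hε hw P.in0 hne,
    div_self (sub_ne_zero.2 (hne _ (left_mem_Icc.2 P.h01.le))), arg_one, sub_zero]

theorem leg3 (hε : 0 < ε) (P : Seg ε) {w : ℂ} (hw : ‖w - P.g P.s3‖ = ε)
    (hne : ∀ x ∈ Icc P.s2 P.s3, P.g x ≠ w) :
    ang (fun x => P.g x - w) P.s2 P.s3 = - arg ((P.g P.s2 - w) / (P.g P.s3 - w)) := by
  rw [ang_disc P.cont P.h23.le hε hw P.in3 hne,
    div_self (sub_ne_zero.2 (hne _ (right_mem_Icc.2 P.h23.le))), arg_one, zero_sub]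

theorem zero0 (P : Seg ε) {c : ℂ} (hc : P.g P.s0 = c) :
    ang (fun x => P.g x - c) P.s0 P.s1 = 0 :=
  ang_zero (left_mem_Icc.2 P.h01.le) (sub_eq_zero.2 hc)

theorem zero3 (P : Seg ε) {c : ℂ} (hc : P.g P.s3 = c) :
    ang (fun x => P.g x - c) P.s2 P.s3 = 0 :=
  ang_zero (right_mem_Icc.2 P.h23.le) (sub_eq_zero.2 hc)

/-- The defect of the square identity for two pieces. -/
noncomputable def XX (P Q : Seg ε) (s t u v : ℝ) : ℝ :=
  ang (fun x => P.g x - Q.g v) s t - ang (fun x => P.g x - Q.g u) s t -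
    (ang (fun y => Q.g y - P.g t) u v - ang (fun y => Q.g y - P.g s) u v)

theorem XX_zero {P Q : Seg ε} {s t u v : ℝ} (hst : s ≤ t) (huv : u ≤ v)
    (hd : ∀ x ∈ Icc s t, ∀ y ∈ Icc u v, P.g x ≠ Q.g y) : XX P Q s t u v = 0 :=
  sub_eq_zero.2 (ang_sq P.cont Q.cont hst huv hd)

theorem XX_mid {P Q : Seg ε} (h : P.Meet Q) {s t : ℝ} (hst : s ≤ t) (hs : P.s0 ≤ s)
    (ht : t ≤ P.s3) : XX P Q s t Q.s1 Q.s2 = 0 :=
  XX_zero hst Q.h12.le fun _ hx _ hy => h.ne_right (hs.trans hx.1) (hx.2.trans ht)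
    (Q.h01.trans_le hy.1) (hy.2.trans_lt Q.h23)

theorem XX_mid' {P Q : Seg ε} (h : P.Meet Q) {s t : ℝ} (hst : s ≤ t) (hs : Q.s0 ≤ s)
    (ht : t ≤ Q.s3) : XX P Q P.s1 P.s2 s t = 0 :=
  XX_zero P.h12.le hst fun _ hx _ hy => (h.symm.ne_right (hs.trans hy.1) (hy.2.trans ht)
    (P.h01.trans_le hx.1) (hx.2.trans_lt P.h23)).symm

open Classical in
theorem XX_00 (hε : 0 < ε) {P Q : Seg ε} (h : P.Meet Q) : XX P Q P.s0 P.s1 Q.s0 Q.s1 =
    if P.g P.s0 = Q.g Q.s0 then psi (P.al false) (Q.al false) else 0 := by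
  have p1 := P.h01; have p2 := P.h12; have p3 := P.h23
  have q1 := Q.h01; have q2 := Q.h12; have q3 := Q.h23
  split_ifs with hb
  · unfold XX
    rw [P.leg0 hε (w := Q.g Q.s1) (hb ▸ Q.on0) fun x hx =>
        h.ne_right (by linarith [hx.1]) (by linarith [hx.2]) (by linarith) (by linarith),
      Q.leg0 hε (w := P.g P.s1) (hb ▸ P.on0) fun x hx =>
        h.symm.ne_right (by linarith [hx.1]) (by linarith [hx.2]) (by linarith) (by linarith),
      P.zero0 hb, Q.zero0 hb.symm]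
    have := (arg_psi hε P.on0 (hb ▸ Q.on0)
      (h.ne_right (by linarith) (by linarith) (by linarith) (by linarith))).2
    simp only [al, Bool.false_eq_true, if_false]
    rw [← hb, ← this]; ring
  · refine XX_zero p1.le q1.le fun x hx y hy hxy => hb ?_
    obtain ⟨h1 | h1, h2 | h2⟩ := h x ⟨hx.1, by linarith [hx.2]⟩ y ⟨hy.1, by linarith [hy.2]⟩ hxy
    · rw [← h1, ← h2, hxy]
    all_goals linarith [hx.2, hy.2]

open Classical in
theorem XX_03 (hε : 0 < ε) {P Q : Seg ε} (h : P.Meet Q) : XX P Q P.s0 P.s1 Q.s2 Q.s3 =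
    - if P.g P.s0 = Q.g Q.s3 then psi (P.al false) (Q.al true) else 0 := by
  have p1 := P.h01; have p2 := P.h12; have p3 := P.h23
  have q1 := Q.h01; have q2 := Q.h12; have q3 := Q.h23
  split_ifs with hb
  · unfold XX
    rw [P.leg0 hε (w := Q.g Q.s2) (hb ▸ Q.on3) fun x hx =>
        h.ne_right (by linarith [hx.1]) (by linarith [hx.2]) (by linarith) (by linarith),
      Q.leg3 hε (w := P.g P.s1) (hb ▸ P.on0) fun x hx =>
        h.symm.ne_right (by linarith [hx.1]) (by linarith [hx.2]) (by linarith) (by linarith),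
      P.zero0 hb, Q.zero3 hb.symm]
    have := (arg_psi hε P.on0 (hb ▸ Q.on3)
      (h.ne_right (by linarith) (by linarith) (by linarith) (by linarith))).2
    simp only [al, Bool.false_eq_true, if_false, if_true]
    rw [← hb, ← this]; ring
  · rw [neg_zero]
    refine XX_zero p1.le q3.le fun x hx y hy hxy => hb ?_
    obtain ⟨h1 | h1, h2 | h2⟩ := h x ⟨hx.1, by linarith [hx.2]⟩ y ⟨by linarith [hy.1], hy.2⟩ hxy
    · linarith [hy.1]
    · rw [← h1, ← h2, hxy]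
    all_goals linarith [hx.2]

open Classical in
theorem XX_30 (hε : 0 < ε) {P Q : Seg ε} (h : P.Meet Q) : XX P Q P.s2 P.s3 Q.s0 Q.s1 =
    - if P.g P.s3 = Q.g Q.s0 then psi (P.al true) (Q.al false) else 0 := by
  have p1 := P.h01; have p2 := P.h12; have p3 := P.h23
  have q1 := Q.h01; have q2 := Q.h12; have q3 := Q.h23
  split_ifs with hb
  · unfold XX
    rw [P.leg3 hε (w := Q.g Q.s1) (hb ▸ Q.on0) fun x hx =>
        h.ne_right (by linarith [hx.1]) (by linarith [hx.2]) (by linarith) (by linarith),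
      Q.leg0 hε (w := P.g P.s2) (hb ▸ P.on3) fun x hx =>
        h.symm.ne_right (by linarith [hx.1]) (by linarith [hx.2]) (by linarith) (by linarith),
      P.zero3 hb, Q.zero0 hb.symm]
    have := (arg_psi hε P.on3 (hb ▸ Q.on0)
      (h.ne_right (by linarith) (by linarith) (by linarith) (by linarith))).2
    simp only [al, Bool.false_eq_true, if_false, if_true]
    rw [← hb, ← this]; ring
  · rw [neg_zero]
    refine XX_zero p3.le q1.le fun x hx y hy hxy => hb ?_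
    obtain ⟨h1 | h1, h2 | h2⟩ := h x ⟨by linarith [hx.1], hx.2⟩ y ⟨hy.1, by linarith [hy.2]⟩ hxy
    · linarith [hx.1]
    · linarith [hx.1]
    · rw [← h1, ← h2, hxy]
    · linarith [hy.2]

open Classical in
theorem XX_33 (hε : 0 < ε) {P Q : Seg ε} (h : P.Meet Q) : XX P Q P.s2 P.s3 Q.s2 Q.s3 =
    if P.g P.s3 = Q.g Q.s3 then psi (P.al true) (Q.al true) else 0 := by
  have p1 := P.h01; have p2 := P.h12; have p3 := P.h23
  have q1 := Q.h01; have q2 := Q.h12; have q3 := Q.h23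
  split_ifs with hb
  · unfold XX
    rw [P.leg3 hε (w := Q.g Q.s2) (hb ▸ Q.on3) fun x hx =>
        h.ne_right (by linarith [hx.1]) (by linarith [hx.2]) (by linarith) (by linarith),
      Q.leg3 hε (w := P.g P.s2) (hb ▸ P.on3) fun x hx =>
        h.symm.ne_right (by linarith [hx.1]) (by linarith [hx.2]) (by linarith) (by linarith),
      P.zero3 hb, Q.zero3 hb.symm]
    have := (arg_psi hε P.on3 (hb ▸ Q.on3)
      (h.ne_right (by linarith) (by linarith) (by linarith) (by linarith))).2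
    simp only [al, if_true]
    rw [← hb, ← this]; ring
  · refine XX_zero p3.le q3.le fun x hx y hy hxy => hb ?_
    obtain ⟨h1 | h1, h2 | h2⟩ :=
      h x ⟨by linarith [hx.1], hx.2⟩ y ⟨by linarith [hy.1], hy.2⟩ hxy
    · linarith [hx.1]
    · linarith [hx.1]
    · linarith [hy.1]
    · rw [← h1, ← h2, hxy]

open Classical in
theorem formula (hε : 0 < ε) {P Q : Seg ε} (h : P.Meet Q) :
    P.th (Q.nd true) - P.th (Q.nd false) - Q.th (P.nd true) + Q.th (P.nd false) =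
      ∑ b : Bool, ∑ b' : Bool,
        if P.nd b = Q.nd b' then sg b * sg b' * psi (P.al b) (Q.al b') else 0 := by
  have p1 := P.h01; have p2 := P.h12; have p3 := P.h23
  have q1 := Q.h01; have q2 := Q.h12; have q3 := Q.h23
  have a1 := XX_00 hε h
  have a2 := XX_03 hε h
  have a3 := XX_30 hε h
  have a4 := XX_33 hε h
  have a5 := XX_mid h p1.le le_rfl (by linarith)
  have a6 := XX_mid h p2.le p1.le p3.le
  have a7 := XX_mid h p3.le (by linarith) le_rfl
  have a8 := XX_mid' h q1.le le_rfl (by linarith)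
  have a9 := XX_mid' h q3.le (by linarith) le_rfl
  unfold XX at a1 a2 a3 a4 a5 a6 a7 a8 a9
  simp only [Fintype.sum_bool, sg, nd, th, if_true, Bool.false_eq_true, if_false]
  split_ifs at a1 a2 a3 a4 ⊢ <;> linarith

theorem exists_exit (hε : 0 < ε) {f : ℝ → ℝ} (hf : Continuous f) {s t : ℝ} (hst : s ≤ t)
    (hs : f s = 0) (ht : ε ≤ f t) :
    ∃ u, s < u ∧ u ≤ t ∧ f u = ε ∧ ∀ x ∈ Icc s u, f x ≤ ε := by
  have hc : IsCompact (Icc s t ∩ f ⁻¹' {ε}) :=
    isCompact_Icc.inter_right (isClosed_singleton.preimage hf)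
  have hn : (Icc s t ∩ f ⁻¹' {ε}).Nonempty := by
    obtain ⟨x, hx, hx'⟩ := intermediate_value_Icc hst hf.continuousOn
      (show ε ∈ Icc (f s) (f t) from ⟨by linarith, ht⟩)
    exact ⟨x, hx, hx'⟩
  obtain ⟨u, ⟨hu, hu'⟩, hmin⟩ := hc.exists_isLeast hn
  have hu'' : f u = ε := hu'
  refine ⟨u, lt_of_le_of_ne hu.1 (by rintro rfl; linarith), hu.2, hu'', fun x hx => ?_⟩
  by_contra hlt
  push Not at hlt
  obtain ⟨y, hy, hy'⟩ := intermediate_value_Icc hx.1 hf.continuousOn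
    (show ε ∈ Icc (f s) (f x) from ⟨by linarith, hlt.le⟩)
  have h1 : u ≤ y := hmin ⟨⟨hy.1, by linarith [hy.2, hx.2, hu.2]⟩, hy'⟩
  have h2 : x = u := le_antisymm hx.2 (h1.trans hy.2)
  rw [h2] at hlt
  linarith

theorem exists_seg (hε : 0 < ε) {g : ℝ → ℂ} (hg : Continuous g) {s t : ℝ} (hst : s < t)
    (hfar : 2 * ε < ‖g t - g s‖) : ∃ P : Seg ε, P.g = g ∧ P.s0 = s ∧ P.s3 = t := by
  obtain ⟨u, h1, h2, h3, h4⟩ := exists_exit hε (f := fun x => ‖g x - g s‖) (by fun_prop) hst.le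
    (by simp) (by linarith)
  have h5 : ε < ‖g u - g t‖ := by
    have := norm_sub_le_norm_sub_add_norm_sub (g t) (g u) (g s)
    rw [norm_sub_rev (g t) (g u)] at this
    linarith
  obtain ⟨v, k1, k2, k3, k4⟩ := exists_exit hε (f := fun x => ‖g (-x) - g t‖) (by fun_prop)
    (neg_le_neg h2) (by simp) (by simpa using h5.le)
  have k5 : u < -v := by
    refine lt_of_le_of_ne (by linarith) ?_
    rintro rfl
    linarith
  refine ⟨⟨g, hg, s, u, -v, t, h1, k5, by linarith, h4, h3, fun x hx => ?_, k3⟩, rfl, rfl, rfl⟩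
  have := k4 (-x) ⟨by linarith [hx.2], by linarith [hx.1]⟩
  simpa using this

end Seg

end Vale.Agent.P040
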