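import Mathlib

namespace Vale.Agent.P040.Sub

open Polynomial Finset Module

/-- Both degrees are smaller than `j`. -/
def Deg (j : ℕ) (p : Polynomial (Polynomial ℝ)) : Prop :=
  p.degree < j ∧ ∀ k, (p.coeff k).degree < j

lemma Deg.zero (j : ℕ) : Deg j 0 :=
  ⟨by rw [degree_zero]; exact WithBot.bot_lt_coe _,
    fun k => by rw [coeff_zero, degree_zero]; exact WithBot.bot_lt_coe _⟩

lemma Deg.add {j : ℕ} {p q : Polynomial (Polynomial ℝ)} (hp : Deg j p) (hq : Deg j q) :
    Deg j (p + q) :=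
  ⟨(degree_add_le _ _).trans_lt (max_lt hp.1 hq.1), fun k => by
    rw [coeff_add]; exact (degree_add_le _ _).trans_lt (max_lt (hp.2 k) (hq.2 k))⟩

lemma Deg.smul {j : ℕ} (c : ℝ) {p : Polynomial (Polynomial ℝ)} (hp : Deg j p) : Deg j (c • p) :=
  ⟨(degree_smul_le _ _).trans_lt hp.1, fun k => by
    rw [coeff_smul]; exact (degree_smul_le _ _).trans_lt (hp.2 k)⟩

lemma Deg.sum {j : ℕ} {ι : Type} (s : Finset ι) {p : ι → Polynomial (Polynomial ℝ)}
    (hp : ∀ i, Deg j (p i)) : Deg j (∑ i ∈ s, p i) :=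
  Finset.sum_induction _ (Deg j) (fun _ _ => Deg.add) (Deg.zero j) fun i _ => hp i

lemma lt_of_mul {R : Type} [CommRing R] [IsDomain R] {j : ℕ} {l f : R[X]} (hl : l.degree = 1)
    (h : (l * f).degree < (j + 1 : ℕ)) : f.degree < j := by
  by_cases h0 : f = 0
  · rw [h0, degree_zero]; exact WithBot.bot_lt_coe _
  · rw [degree_mul, hl, degree_eq_natDegree h0] at h
    rw [degree_eq_natDegree h0]
    have h' : 1 + f.natDegree < j + 1 := by exact_mod_cast h
    exact_mod_cast (by omega : f.natDegree < j)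

lemma Deg.div {j : ℕ} {u : Polynomial (Polynomial ℝ)} (h : Deg (j + 1) ((X - C X) * u)) :
    Deg j u := by
  refine ⟨lt_of_mul (degree_X_sub_C _) h.1, fun k => ?_⟩
  induction k with
  | zero =>
    have := h.2 0
    rw [mul_coeff_zero, coeff_sub, coeff_X_zero, coeff_C_zero, zero_sub, neg_mul, degree_neg] at this
    exact lt_of_mul degree_X this
  | succ k ih =>
    have h1 := h.2 (k + 1)
    rw [coeff_X_sub_C_mul] at h1
    apply lt_of_mul degree_X
    have h2 : X * u.coeff (k + 1) = u.coeff k - (u.coeff k - X * u.coeff (k + 1)) := by ring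
    rw [h2]
    refine (degree_sub_le _ _).trans_lt (max_lt (ih.trans ?_) h1)
    exact_mod_cast Nat.lt_succ_self j

lemma Deg.diag {j : ℕ} {p : Polynomial (Polynomial ℝ)} (h : Deg (j + 1) p) :
    (p.eval X).degree < (2 * j + 1 : ℕ) := by
  by_cases h0 : p = 0
  · rw [h0, eval_zero, degree_zero]; exact WithBot.bot_lt_coe _
  have h1 : p.natDegree < j + 1 := (natDegree_lt_iff_degree_lt h0).mpr h.1
  rw [eval_eq_sum_range' h1]
  refine (degree_sum_le _ _).trans_lt ((Finset.sup_lt_iff (WithBot.bot_lt_coe _)).mpr fun i hi => ?_)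
  by_cases hc : p.coeff i = 0
  · rw [hc, zero_mul, degree_zero]; exact WithBot.bot_lt_coe _
  have h2 : (p.coeff i).natDegree < j + 1 := (natDegree_lt_iff_degree_lt hc).mpr (h.2 i)
  rw [degree_mul, degree_X_pow, degree_eq_natDegree hc]
  have h3 := mem_range.mp hi
  exact_mod_cast (by omega : (p.coeff i).natDegree + i < 2 * j + 1)

lemma eval_diag (x : ℝ) (p : Polynomial (Polynomial ℝ)) :
    (p.eval X).eval x = p.evalEval x x := by
  induction p using Polynomial.induction_on' with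
  | add p q hp hq => simp only [eval_add, evalEval, hp, hq]
  | monomial n a => simp [evalEval]

variable {V : Type} [AddCommGroup V] [Module ℝ V] {m : ℕ}

/-- The modules of the filtration. -/
def M (P Q : Fin m → Submodule ℝ V) (j : ℕ) :
    Submodule ℝ (V →ₗ[ℝ] Polynomial (Polynomial ℝ)) where
  carrier := {y | (∀ φ, Deg j (y φ)) ∧
    (∀ a, ∀ φ ∈ P a, (y φ).map (evalRingHom ((a : ℕ) : ℝ)) = 0) ∧
    (∀ b, ∀ φ ∈ Q b, (y φ).eval (C ((b : ℕ) : ℝ)) = 0)}
  add_mem' := fun {y z} hy hz => ⟨fun φ => (hy.1 φ).add (hz.1 φ),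
    fun a φ h => by rw [LinearMap.add_apply, Polynomial.map_add, hy.2.1 a φ h, hz.2.1 a φ h, add_zero],
    fun a φ h => by rw [LinearMap.add_apply, eval_add, hy.2.2 a φ h, hz.2.2 a φ h, add_zero]⟩
  zero_mem' := ⟨fun _ => Deg.zero j, fun _ _ _ => by simp, fun _ _ _ => by simp⟩
  smul_mem' := fun c {y} hy => ⟨fun φ => (hy.1 φ).smul c,
    fun a φ h => by
      rw [LinearMap.smul_apply, Algebra.smul_def, Polynomial.map_mul, hy.2.1 a φ h, mul_zero],
    fun a φ h => by rw [LinearMap.smul_apply, eval_smul, hy.2.2 a φ h, smul_zero]⟩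

/-- Evaluation on the diagonal at further nodes. -/
noncomputable def dg (m r : ℕ) : Polynomial (Polynomial ℝ) →ₗ[ℝ] (Fin r → ℝ) where
  toFun p := fun i => p.evalEval ((m + i : ℕ) : ℝ) ((m + i : ℕ) : ℝ)
  map_add' p q := by funext i; simp
  map_smul' c p := by funext i; simp

lemma dvd_of_dg {P Q : Fin m → Submodule ℝ V} (h : ∀ a, P a ⊔ Q a = ⊤) {j : ℕ}
    {y : V →ₗ[ℝ] Polynomial (Polynomial ℝ)} (hy : y ∈ M P Q (j + 1)) (φ : V)
    (h0 : dg m (2 * j + 1 - m) (y φ) = 0) : X - C X ∣ y φ := by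
  rw [dvd_iff_isRoot, IsRoot.def]
  apply eq_zero_of_degree_lt_of_eval_index_eq_zero (range (m + (2 * j + 1 - m)))
    (v := fun i : ℕ => (i : ℝ)) (Nat.cast_injective.injOn)
  · refine (hy.1 φ).diag.trans_le ?_
    rw [card_range]
    exact_mod_cast (by omega : 2 * j + 1 ≤ m + (2 * j + 1 - m))
  · intro i hi
    rw [eval_diag]
    by_cases him : i < m
    · have hφ : φ ∈ P ⟨i, him⟩ ⊔ Q ⟨i, him⟩ := by rw [h]; trivial
      obtain ⟨u, hu, v, hv, rfl⟩ := Submodule.mem_sup.mp hφ
      rw [map_add, evalEval_add, ← map_evalRingHom_eval, hy.2.1 _ u hu, evalEval, hy.2.2 _ v hv]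
      simp
    · have hi' := mem_range.mp hi
      have := congrFun h0 ⟨i - m, by omega⟩
      simp only [dg, LinearMap.coe_mk, AddHom.coe_mk, Pi.zero_apply] at this
      rwa [show m + (i - m) = i by omega] at this

lemma rank_aux {A B : Type} [AddCommGroup A] [Module ℝ A] [AddCommGroup B] [Module ℝ B]
    (S : Submodule ℝ (V →ₗ[ℝ] A)) (Ψ : S →ₗ[ℝ] B) :
    Module.rank ℝ (LinearMap.range Ψ) + Module.rank ℝ (LinearMap.ker Ψ) = Module.rank ℝ S :=
  Ψ.rank_range_add_rank_ker

lemma rank_succ [FiniteDimensional ℝ V] {P Q : Fin m → Submodule ℝ V} (h : ∀ a, P a ⊔ Q a = ⊤)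
    (j : ℕ) : Module.rank ℝ (M P Q (j + 1)) ≤
      (finrank ℝ V * (2 * j + 1 - m) : ℕ) + Module.rank ℝ (M P Q j) := by
  have hX : (X - C X : Polynomial (Polynomial ℝ)) ≠ 0 := X_sub_C_ne_zero _
  obtain ⟨g, hg⟩ := (LinearMap.mulLeft ℝ
      (X - C X : Polynomial (Polynomial ℝ))).exists_leftInverse_of_injective
    (LinearMap.ker_eq_bot.mpr (mul_right_injective₀ hX))
  have hg' : ∀ u, g ((X - C X) * u) = u := fun u => LinearMap.congr_fun hg u
  let Ψ : M P Q (j + 1) →ₗ[ℝ] (V →ₗ[ℝ] (Fin (2 * j + 1 - m) → ℝ)) :=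
    (LinearMap.llcomp ℝ V _ _ (dg m (2 * j + 1 - m))).comp (Submodule.subtype _)
  have hk : ∀ y : LinearMap.ker Ψ, ∀ φ, y.1.1 φ = (X - C X) * g (y.1.1 φ) := fun y φ => by
    obtain ⟨u, hu⟩ := dvd_of_dg h y.1.2 φ (LinearMap.congr_fun (LinearMap.mem_ker.mp y.2) φ)
    rw [hu, hg']
  let f : LinearMap.ker Ψ →ₗ[ℝ] M P Q j :=
    LinearMap.codRestrict _ (((LinearMap.llcomp ℝ V _ _ g).comp (Submodule.subtype _)).comp
      (Submodule.subtype _)) (by
      intro y
      refine ⟨fun φ => Deg.div ?_, fun a φ hφ => ?_, fun b φ hφ => ?_⟩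
      · have := y.1.2.1 φ
        rwa [hk y φ] at this
      · have := y.1.2.2.1 a φ hφ
        rw [hk y φ, Polynomial.map_mul] at this
        refine (mul_eq_zero.mp this).resolve_left ?_
        rw [Polynomial.map_sub, map_X, map_C]
        exact X_sub_C_ne_zero _
      · have := y.1.2.2.2 b φ hφ
        rw [hk y φ, eval_mul] at this
        refine (mul_eq_zero.mp this).resolve_left ?_
        rw [eval_sub, eval_X, eval_C, ← neg_sub, neg_eq_zero]
        exact X_sub_C_ne_zero _)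
  have hf : Function.Injective f := fun y z hyz => by
    refine Subtype.ext (Subtype.ext (LinearMap.ext fun φ => ?_))
    have : g (y.1.1 φ) = g (z.1.1 φ) := LinearMap.congr_fun (congrArg Subtype.val hyz) φ
    rw [hk y φ, hk z φ, this]
  refine (rank_aux (A := Polynomial (Polynomial ℝ)) (M P Q (j + 1)) Ψ).symm.le.trans ?_
  refine add_le_add ((Submodule.rank_le _).trans (le_of_eq ?_)) (f.rank_le_of_injective hf)
  rw [← finrank_eq_rank, finrank_linearMap]
  simp

lemma rank_le [FiniteDimensional ℝ V] {P Q : Fin m → Submodule ℝ V} (h : ∀ a, P a ⊔ Q a = ⊤)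
    (j : ℕ) : Module.rank ℝ (M P Q j) ≤ (finrank ℝ V * ∑ i ∈ range j, (2 * i + 1 - m) : ℕ) := by
  induction j with
  | zero =>
    have : M P Q 0 = ⊥ := by
      rw [eq_bot_iff]
      intro y hy
      refine LinearMap.ext fun φ => ?_
      have := (hy.1 φ).1
      rw [Nat.cast_zero, Nat.WithBot.lt_zero_iff, degree_eq_bot] at this
      exact this
    rw [this, rank_bot]
    exact zero_le
  | succ j ih =>
    refine (rank_succ h j).trans ?_
    rw [sum_range_succ, mul_add, Nat.cast_add, add_comm]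
    exact add_le_add ih le_rfl

lemma sum_sub (m : ℕ) : ∑ i ∈ range m, (2 * i + 1 - m) ≤ m ^ 2 / 4 := by
  have h : ∀ j, j ≤ m → 4 * ∑ i ∈ range j, (2 * i + 1 - m) ≤ (2 * j - m) ^ 2 := by
    intro j
    induction j with
    | zero => simp
    | succ j ih =>
      intro hj
      have := ih (by omega)
      rw [sum_range_succ, mul_add]
      rcases le_or_gt m (2 * j) with h1 | h1
      · obtain ⟨e, he⟩ := Nat.exists_eq_add_of_le h1
        rw [show 2 * j - m = e by omega] at this
        rw [show 2 * j + 1 - m = e + 1 by omega, show 2 * (j + 1) - m = e + 2 by omega]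
        nlinarith
      · rw [show 2 * j - m = 0 by omega] at this
        rw [show 2 * j + 1 - m = 0 by omega]
        simp only [ne_eq, OfNat.ofNat_ne_zero, not_false_eq_true, zero_pow] at this
        omega
  have := h m le_rfl
  rw [show 2 * m - m = m by omega] at this
  omega

end Vale.Agent.P040.Sub
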