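import Vale.Agent.P040.Defs

namespace Vale.Agent.P040

open Set

namespace Upper

/-- The straight segment from `1/u` to `I/v`. -/
noncomputable def seg (u v : ℝ) : C(unitInterval, ℂ) :=
  ⟨fun t => (((1 - (t : ℝ)) / u : ℝ) : ℂ) + (((t : ℝ) / v : ℝ) : ℂ) * Complex.I, by fun_prop⟩

lemma seg_re (u v : ℝ) (t : unitInterval) : (seg u v t).re = (1 - (t : ℝ)) / u := by
  simp only [seg, ContinuousMap.coe_mk, Complex.add_re, Complex.ofReal_re, Complex.mul_re,
    Complex.I_re, Complex.I_im, Complex.ofReal_im]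
  ring

lemma seg_im (u v : ℝ) (t : unitInterval) : (seg u v t).im = (t : ℝ) / v := by
  simp only [seg, ContinuousMap.coe_mk, Complex.add_im, Complex.ofReal_re, Complex.mul_im,
    Complex.I_re, Complex.I_im, Complex.ofReal_im]
  ring

lemma seg_eq {u v : ℝ} (hu : u ≠ 0) (hv : v ≠ 0) {z : ℂ} (h : u * z.re + v * z.im = 1)
    (t : unitInterval) (ht : (t : ℝ) = v * z.im) : seg u v t = z := by
  apply Complex.ext
  · rw [seg_re, ht]
    field_simp
    linarith
  · rw [seg_im, ht]
    field_simp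

lemma mem_range {u v : ℝ} (hu : u ≠ 0) (hv : v ≠ 0) (z : ℂ) :
    z ∈ range (seg u v) ↔ u * z.re + v * z.im = 1 ∧ 0 ≤ u * z.re ∧ 0 ≤ v * z.im := by
  constructor
  · rintro ⟨t, rfl⟩
    have h1 : u * (seg u v t).re = 1 - (t : ℝ) := by rw [seg_re]; field_simp
    have h2 : v * (seg u v t).im = (t : ℝ) := by rw [seg_im]; field_simp
    rw [h1, h2]
    exact ⟨by ring, by linarith [t.2.2], t.2.1⟩
  · rintro ⟨h, h1, h2⟩
    exact ⟨⟨v * z.im, h2, by linarith⟩, seg_eq hu hv h _ rfl⟩

lemma mem_inner {u v : ℝ} (hu : u ≠ 0) (hv : v ≠ 0) (z : ℂ) :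
    z ∈ inner (seg u v) ↔ u * z.re + v * z.im = 1 ∧ 0 < u * z.re ∧ 0 < v * z.im := by
  constructor
  · rintro ⟨t, ht, rfl⟩
    have h1 : u * (seg u v t).re = 1 - (t : ℝ) := by rw [seg_re]; field_simp
    have h2 : v * (seg u v t).im = (t : ℝ) := by rw [seg_im]; field_simp
    rw [h1, h2]
    have h3 : (0 : ℝ) < t := ht.1
    have h4 : (t : ℝ) < 1 := ht.2
    exact ⟨by ring, by linarith, h3⟩
  · rintro ⟨h, h1, h2⟩
    refine ⟨⟨v * z.im, h2.le, by linarith⟩, ⟨?_, ?_⟩, seg_eq hu hv h _ rfl⟩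
    · exact h2
    · show v * z.im < 1
      linarith

lemma seg_inj {u v : ℝ} (hv : v ≠ 0) : Function.Injective (seg u v) := by
  intro s t h
  have := congrArg Complex.im h
  rw [seg_im, seg_im] at this
  apply Subtype.ext
  field_simp at this
  exact this

lemma det_ne {u v u' v' x y : ℝ} (h : u * x + v * y = 1) (h' : u' * x + v' * y = 1)
    (hx : 0 < u * x) (hu : u ≠ u') : u' * v - u * v' ≠ 0 := by
  intro h0
  have hx0 : x ≠ 0 := by rintro rfl; simp at hx
  have h1 : (u' * v - u * v') * y = u' - u := by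
    have e1 : v * y = 1 - u * x := by linarith
    have e2 : v' * y = 1 - u' * x := by linarith
    calc (u' * v - u * v') * y = u' * (v * y) - u * (v' * y) := by ring
      _ = u' - u := by rw [e1, e2]; ring
  rw [h0] at h1
  apply hu
  linarith

/-- The affine change of coordinates. -/
noncomputable def aff (u v u' v' : ℝ) (h : u' * v - u * v' ≠ 0) : ℂ ≃ₜ ℂ where
  toFun z := ((u' * z.re + v' * z.im - 1 : ℝ) : ℂ) + ((u * z.re + v * z.im - 1 : ℝ) : ℂ) * Complex.I
  invFun w := ((((w.re + 1) * v - (w.im + 1) * v') / (u' * v - u * v') : ℝ) : ℂ) +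
    (((u' * (w.im + 1) - u * (w.re + 1)) / (u' * v - u * v') : ℝ) : ℂ) * Complex.I
  left_inv z := by
    apply Complex.ext
    · simp only [Complex.add_re, Complex.ofReal_re, Complex.mul_re, Complex.I_re, Complex.I_im,
        Complex.ofReal_im, Complex.add_im, Complex.mul_im, mul_zero, mul_one, sub_zero, add_zero,
        zero_add]
      rw [div_eq_iff h]
      ring
    · simp only [Complex.add_re, Complex.ofReal_re, Complex.mul_re, Complex.I_re, Complex.I_im,
        Complex.ofReal_im, Complex.add_im, Complex.mul_im, mul_zero, mul_one, sub_zero, add_zero,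
        zero_add]
      rw [div_eq_iff h]
      ring
  right_inv z := by
    apply Complex.ext
    · simp only [Complex.add_re, Complex.ofReal_re, Complex.mul_re, Complex.I_re, Complex.I_im,
        Complex.ofReal_im, Complex.add_im, Complex.mul_im, mul_zero, mul_one, sub_zero, add_zero,
        zero_add]
      rw [← mul_div_assoc, ← mul_div_assoc, ← add_div, sub_eq_iff_eq_add, div_eq_iff h]
      ring
    · simp only [Complex.add_re, Complex.ofReal_re, Complex.mul_re, Complex.I_re, Complex.I_im,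
        Complex.ofReal_im, Complex.add_im, Complex.mul_im, mul_zero, mul_one, sub_zero, add_zero,
        zero_add]
      rw [← mul_div_assoc, ← mul_div_assoc, ← add_div, sub_eq_iff_eq_add, div_eq_iff h]
      ring
  continuous_toFun := by fun_prop
  continuous_invFun := by fun_prop

lemma aff_re (u v u' v' : ℝ) (h : u' * v - u * v' ≠ 0) (z : ℂ) :
    (aff u v u' v' h z).re = u' * z.re + v' * z.im - 1 := by
  show (((u' * z.re + v' * z.im - 1 : ℝ) : ℂ) +
    ((u * z.re + v * z.im - 1 : ℝ) : ℂ) * Complex.I).re = _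
  simp only [Complex.add_re, Complex.ofReal_re, Complex.mul_re, Complex.I_re, Complex.I_im,
    Complex.ofReal_im]
  ring

lemma aff_im (u v u' v' : ℝ) (h : u' * v - u * v' ≠ 0) (z : ℂ) :
    (aff u v u' v' h z).im = u * z.re + v * z.im - 1 := by
  show (((u' * z.re + v' * z.im - 1 : ℝ) : ℂ) +
    ((u * z.re + v * z.im - 1 : ℝ) : ℂ) * Complex.I).im = _
  simp only [Complex.add_im, Complex.ofReal_re, Complex.mul_im, Complex.I_re, Complex.I_im,
    Complex.ofReal_im]
  ring

lemma proper {u v u' v' : ℝ} (hu : u ≠ 0) (hv : v ≠ 0) (hu' : u' ≠ 0) (hv' : v' ≠ 0)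
    (huu : u ≠ u') {p : ℂ} (hp : p ∈ inner (seg u v)) (hp' : p ∈ inner (seg u' v')) :
    ProperAt (seg u v) (seg u' v') p := by
  rw [mem_inner hu hv] at hp
  rw [mem_inner hu' hv'] at hp'
  have hd := det_ne hp.1 hp'.1 hp.2.1 huu
  have hopen : IsOpen {z : ℂ | 0 < u * z.re ∧ 0 < v * z.im ∧ 0 < u' * z.re ∧ 0 < v' * z.im} := by
    have o1 : ∀ a : ℝ, IsOpen {z : ℂ | 0 < a * z.re} := fun a =>
      isOpen_lt continuous_const (by fun_prop)
    have o2 : ∀ a : ℝ, IsOpen {z : ℂ | 0 < a * z.im} := fun a =>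
      isOpen_lt continuous_const (by fun_prop)
    exact (o1 u).inter ((o2 v).inter ((o1 u').inter (o2 v')))
  refine ⟨(aff u v u' v' hd).toOpenPartialHomeomorph.restrOpen _ hopen, ?_, ?_, ?_⟩
  · simp only [OpenPartialHomeomorph.restrOpen_source, Homeomorph.toOpenPartialHomeomorph_source,
      univ_inter]
    exact ⟨hp.2.1, hp.2.2, hp'.2.1, hp'.2.2⟩
  · show aff u v u' v' hd p = 0
    apply Complex.ext
    · rw [aff_re, hp'.1]; simp
    · rw [aff_im, hp.1]; simp
  · intro z hz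
    simp only [OpenPartialHomeomorph.restrOpen_source, Homeomorph.toOpenPartialHomeomorph_source,
      univ_inter] at hz
    obtain ⟨h1, h2, h3, h4⟩ := hz
    show (z ∈ range (seg u v) ↔ (aff u v u' v' hd z).im = 0) ∧
      (z ∈ range (seg u' v') ↔ (aff u v u' v' hd z).re = 0)
    rw [mem_range hu hv, mem_range hu' hv', aff_re, aff_im]
    exact ⟨⟨fun h => by linarith [h.1], fun h => ⟨by linarith, h1.le, h2.le⟩⟩,
      ⟨fun h => by linarith [h.1], fun h => ⟨by linarith, h3.le, h4.le⟩⟩⟩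

/-- Signed sequence. -/
def sg (a : ℕ → ℝ) (i : ℕ) : ℝ := (-1) ^ i * a i

lemma sg_abs {a : ℕ → ℝ} (ha : ∀ i, 0 < a i) (i : ℕ) {x : ℝ} (h : 0 < sg a i * x) :
    sg a i * x = a i * |x| := by
  rw [← abs_of_pos h, abs_mul, sg, abs_mul, abs_pow, abs_neg, abs_one, one_pow, one_mul,
    abs_of_pos (ha i)]

lemma sg_ne {a : ℕ → ℝ} (ha : ∀ i, 0 < a i) (i : ℕ) : sg a i ≠ 0 :=
  mul_ne_zero (pow_ne_zero _ (by norm_num)) (ha i).ne'

lemma sg_inj {a : ℕ → ℝ} (ha : ∀ i, 0 < a i) (hm : StrictMono a) : Function.Injective (sg a) := by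
  intro i j h
  have := congrArg abs h
  simp only [sg, abs_mul, abs_pow, abs_neg, abs_one, one_pow, one_mul, abs_of_pos (ha _)] at this
  exact hm.injective this

lemma sg_par {a : ℕ → ℝ} (ha : ∀ i, 0 < a i) {i j : ℕ} {x : ℝ} (h : 0 < sg a i * x)
    (h' : 0 < sg a j * x) : i % 2 = j % 2 := by
  have hi := ha i
  have hj := ha j
  rcases Nat.even_or_odd i with h1 | h1 <;> rcases Nat.even_or_odd j with h2 | h2
  · rw [Nat.even_iff.1 h1, Nat.even_iff.1 h2]
  · exfalso
    rw [sg, h1.neg_one_pow] at h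
    rw [sg, h2.neg_one_pow] at h'
    have : 0 < x := by
      by_contra hx
      nlinarith
    nlinarith
  · exfalso
    rw [sg, h1.neg_one_pow] at h
    rw [sg, h2.neg_one_pow] at h'
    have : 0 < x := by
      by_contra hx
      nlinarith
    nlinarith
  · rw [Nat.odd_iff.1 h1, Nat.odd_iff.1 h2]

/-- Absolute values of the first class. -/
def ua (i : ℕ) : ℝ := (i : ℝ) + 1

/-- Absolute values of the second class. -/
def va (m j : ℕ) : ℝ := ((m : ℝ) + 2) ^ j

lemma ua_pos (i : ℕ) : 0 < ua i := by unfold ua; positivity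

lemma va_pos (m j : ℕ) : 0 < va m j := by unfold va; positivity

lemma ua_mono : StrictMono ua := by
  intro i j h
  have : (i : ℝ) < j := by exact_mod_cast h
  unfold ua
  linarith

lemma va_mono (m : ℕ) : StrictMono (va m) := by
  intro i j h
  have : (0 : ℝ) ≤ m := by positivity
  exact pow_lt_pow_right₀ (by linarith) h

/-- The edge from the `i`-th to the `j`-th vertex. -/
noncomputable def ed (m i j : ℕ) : C(unitInterval, ℂ) := seg (sg ua i) (sg (va m) j)

lemma ed_iff (m i j : ℕ) (z : ℂ) : z ∈ inner (ed m i j) ↔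
    sg ua i * z.re + sg (va m) j * z.im = 1 ∧ 0 < sg ua i * z.re ∧ 0 < sg (va m) j * z.im :=
  mem_inner (sg_ne ua_pos i) (sg_ne (va_pos m) j) z

lemma ed_abs {m i j : ℕ} {z : ℂ} (h : z ∈ inner (ed m i j)) :
    ua i * |z.re| + va m j * |z.im| = 1 ∧ 0 < |z.re| ∧ 0 < |z.im| := by
  rw [ed_iff] at h
  obtain ⟨h1, h2, h3⟩ := h
  refine ⟨?_, ?_, ?_⟩
  · rw [← sg_abs ua_pos i h2, ← sg_abs (va_pos m) j h3, h1]
  · rw [abs_pos]
    intro h0
    rw [h0] at h2
    simp at h2
  · rw [abs_pos]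
    intro h0
    rw [h0] at h3
    simp at h3

lemma lt_iff {m i j i' j' : ℕ} {z : ℂ} (h : z ∈ inner (ed m i j)) (h' : z ∈ inner (ed m i' j')) :
    i < i' ↔ j' < j := by
  obtain ⟨h1, hx, hy⟩ := ed_abs h
  obtain ⟨h2, -, -⟩ := ed_abs h'
  rw [← ua_mono.lt_iff_lt, ← (va_mono m).lt_iff_lt]
  constructor
  · intro hh
    have := mul_lt_mul_of_pos_right hh hx
    exact lt_of_mul_lt_mul_right (by linarith) hy.le
  · intro hh
    have := mul_lt_mul_of_pos_right hh hy
    exact lt_of_mul_lt_mul_right (by linarith) hx.le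

lemma three {m i1 j1 i2 j2 i3 j3 : ℕ} {z : ℂ} (hi : i2 < m) (h1 : z ∈ inner (ed m i1 j1))
    (h2 : z ∈ inner (ed m i2 j2)) (h3 : z ∈ inner (ed m i3 j3)) (h12 : j1 < j2) (h23 : j2 < j3) :
    False := by
  have a1 : i2 < i1 := (lt_iff h2 h1).2 h12
  obtain ⟨e1, hx, hy⟩ := ed_abs h1
  obtain ⟨e2, -, -⟩ := ed_abs h2
  obtain ⟨e3, -, -⟩ := ed_abs h3
  set X := |z.re|
  set Y := |z.im|
  have b1 : (i2 : ℝ) + 1 ≤ i1 := by exact_mod_cast a1
  have b2 : (i2 : ℝ) ≤ m := by exact_mod_cast hi.le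
  have b3 : (0 : ℝ) ≤ i3 := by positivity
  have b4 : (0 : ℝ) ≤ m := by positivity
  have c1 : va m j2 * ((m : ℝ) + 2) ≤ va m j3 := by
    have : va m (j2 + 1) ≤ va m j3 := (va_mono m).monotone h23
    unfold va at this ⊢
    rwa [pow_succ] at this
  have c2 := va_pos m j1
  have c3 := va_pos m j2
  unfold ua at e1 e2 e3
  have d1 : X ≤ va m j2 * Y := by nlinarith [mul_pos c2 hy]
  have d2 : (va m j3 - va m j2) * Y ≤ m * X := by nlinarith
  have d3 : (m : ℝ) * X ≤ m * (va m j2 * Y) := mul_le_mul_of_nonneg_left d1 b4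
  have d4 : va m j2 * ((m : ℝ) + 2) * Y ≤ va m j3 * Y := mul_le_mul_of_nonneg_right c1 hy.le
  nlinarith [mul_pos c3 hy]

lemma eq_of {m i j i' j' : ℕ} {z : ℂ} (h : z ∈ inner (ed m i j)) (h' : z ∈ inner (ed m i' j')) :
    i = i' ↔ j = j' := by
  have h1 := lt_iff h h'
  have h2 := lt_iff h' h
  omega

lemma uniq {m i j i' j' : ℕ} {z w : ℂ} (hi : i ≠ i') (h : z ∈ inner (ed m i j))
    (h' : z ∈ inner (ed m i' j')) (k : w ∈ inner (ed m i j)) (k' : w ∈ inner (ed m i' j')) :
    z = w := by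
  rw [ed_iff] at h h' k k'
  have hd := det_ne h.1 h'.1 h.2.1 (fun e => hi (sg_inj ua_pos ua_mono e))
  apply (aff _ _ _ _ hd).injective
  apply Complex.ext
  · rw [aff_re, aff_re, h'.1, k'.1]
  · rw [aff_im, aff_im, h.1, k.1]

/-- Codes of the pairs of the same parity. -/
def T (m : ℕ) : Finset (Σ _ : ℕ, ℕ) := (Finset.range m).sigma fun b => Finset.range (b / 2)

lemma card_T (m : ℕ) : (T m).card = d m := by
  unfold T
  rw [Finset.card_sigma]
  simp only [Finset.card_range]
  induction m with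
  | zero => simp [d]
  | succ k ih =>
    rw [Finset.sum_range_succ, ih]
    unfold d
    rcases Nat.eq_zero_or_pos k with rfl | hk
    · simp
    · have h1 : (k + 1) / 2 = (k - 1) / 2 + 1 := by omega
      rw [h1, Nat.add_sub_cancel]
      ring

/-- The edges of the drawing. -/
noncomputable def arc (m n : ℕ) (e : Fin m × Fin n) : C(unitInterval, ℂ) := ed m e.1 e.2

lemma exists_code (m n : ℕ) (p : ℂ) (hp : p ∈ crossPts (arc m n)) :
    ∃ c : (Σ _ : ℕ, ℕ) × (Σ _ : ℕ, ℕ), c ∈ T m ×ˢ T n ∧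
      p ∈ inner (ed m (2 * c.1.2 + c.1.1 % 2) c.2.1) ∧
      p ∈ inner (ed m c.1.1 (2 * c.2.2 + c.2.1 % 2)) := by
  have key : ∀ e f : Fin m × Fin n, (e.1 : ℕ) < f.1 → p ∈ inner (arc m n e) →
      p ∈ inner (arc m n f) → ∃ c : (Σ _ : ℕ, ℕ) × (Σ _ : ℕ, ℕ), c ∈ T m ×ˢ T n ∧
      p ∈ inner (ed m (2 * c.1.2 + c.1.1 % 2) c.2.1) ∧
      p ∈ inner (ed m c.1.1 (2 * c.2.2 + c.2.1 % 2)) := by
    intro e f hlt he hf
    have h1 : (f.2 : ℕ) < e.2 := (lt_iff he hf).1 hlt
    have he' := (ed_iff _ _ _ _).1 he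
    have hf' := (ed_iff _ _ _ _).1 hf
    have p1 := sg_par ua_pos he'.2.1 hf'.2.1
    have p2 := sg_par (va_pos m) he'.2.2 hf'.2.2
    refine ⟨(⟨f.1, e.1 / 2⟩, ⟨e.2, f.2 / 2⟩), ?_, ?_, ?_⟩
    · simp only [T, Finset.mem_product, Finset.mem_sigma, Finset.mem_range]
      refine ⟨⟨f.1.2, by omega⟩, ⟨e.2.2, by omega⟩⟩
    · have : 2 * ((e.1 : ℕ) / 2) + (f.1 : ℕ) % 2 = e.1 := by omega
      simp only [this]
      exact he
    · have : 2 * ((f.2 : ℕ) / 2) + (e.2 : ℕ) % 2 = f.2 := by omega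
      simp only [this]
      exact hf
  obtain ⟨e, f, hne, he, hf⟩ := hp
  rcases lt_trichotomy (e.1 : ℕ) f.1 with h | h | h
  · exact key e f h he hf
  · exact absurd (Prod.ext (Fin.ext h) (Fin.ext ((eq_of he hf).1 h))) hne
  · exact key f e h hf he

lemma count (m n : ℕ) : (crossPts (arc m n)).Finite ∧ (crossPts (arc m n)).ncard ≤ d m * d n := by
  classical
  choose! c hc using exists_code m n
  have hmap : MapsTo c (crossPts (arc m n)) (↑(T m ×ˢ T n) : Set _) := fun p hp => (hc p hp).1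
  have hinj : InjOn c (crossPts (arc m n)) := by
    intro p hp q hq h
    obtain ⟨h0, h1, h2⟩ := hc p hp
    obtain ⟨-, k1, k2⟩ := hc q hq
    rw [← h] at k1 k2
    refine uniq ?_ h1 h2 k1 k2
    simp only [T, Finset.mem_product, Finset.mem_sigma, Finset.mem_range] at h0
    have := h0.1.2
    omega
  refine ⟨Finite.of_injOn hmap hinj (Finset.finite_toSet _), ?_⟩
  have := ncard_le_ncard_of_injOn c hmap hinj (Finset.finite_toSet _)
  rwa [ncard_coe_finset, Finset.card_product, card_T, card_T] at this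

/-- The drawing of Zarankiewicz. -/
noncomputable def drawing (m n : ℕ) : Drawing m n where
  A i := ((1 / sg ua i : ℝ) : ℂ)
  B j := ((1 / sg (va m) j : ℝ) : ℂ) * Complex.I
  A_inj := by
    intro i j h
    have h1 := Complex.ofReal_injective h
    simp only [one_div, inv_inj] at h1
    exact Fin.ext (sg_inj ua_pos ua_mono h1)
  B_inj := by
    intro i j h
    have h1 := Complex.ofReal_injective (mul_right_cancel₀ Complex.I_ne_zero h)
    simp only [one_div, inv_inj] at h1
    exact Fin.ext (sg_inj (va_pos m) (va_mono m) h1)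
  A_ne_B := by
    intro i j h
    have h1 := congrArg Complex.re h
    simp only [Complex.ofReal_re, Complex.mul_re, Complex.I_re, Complex.I_im, Complex.ofReal_im,
      mul_zero, zero_mul, sub_zero, one_div, inv_eq_zero] at h1
    exact sg_ne ua_pos i h1
  arc := arc m n
  arc_inj e := seg_inj (sg_ne (va_pos m) _)
  src e := by
    apply Complex.ext
    · unfold arc ed; rw [seg_re]; simp
    · unfold arc ed; rw [seg_im]; simp
  tgt e := by
    apply Complex.ext
    · unfold arc ed; rw [seg_re]; simp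
    · unfold arc ed; rw [seg_im]; simp
  avoidA e i h := by
    have := (ed_abs h).2.2
    simp only [Complex.ofReal_im, abs_zero, lt_self_iff_false] at this
  avoidB e j h := by
    have := (ed_abs h).2.1
    simp only [Complex.ofReal_re, Complex.mul_re, Complex.I_re, Complex.I_im, Complex.ofReal_im,
      mul_zero, zero_mul, sub_zero, abs_zero, lt_self_iff_false] at this
  finite := (count m n).1
  two e f g p he hf hg := by
    by_contra hcon
    have ne : ∀ a b : Fin m × Fin n, p ∈ inner (arc m n a) → p ∈ inner (arc m n b) → a ≠ b →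
        (a.2 : ℕ) ≠ b.2 := fun a b ha hb hab h =>
      hab (Prod.ext (Fin.ext ((eq_of ha hb).2 h)) (Fin.ext h))
    have n1 := ne e f he hf (fun h => hcon (Or.inl h))
    have n2 := ne e g he hg (fun h => hcon (Or.inr (Or.inl h)))
    have n3 := ne f g hf hg (fun h => hcon (Or.inr (Or.inr h)))
    have t := fun a b c : Fin m × Fin n => @three m a.1 a.2 b.1 b.2 c.1 c.2 p b.1.2
    rcases lt_or_gt_of_ne n1 with a | a <;> rcases lt_or_gt_of_ne n2 with b | b <;>
      rcases lt_or_gt_of_ne n3 with c | c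
    · exact t e f g he hf hg a c
    · exact t e g f he hg hf b c
    · omega
    · exact t g e f hg he hf b a
    · exact t f e g hf he hg a b
    · omega
    · exact t f g e hf hg he c b
    · exact t g f e hg hf he c a
  proper e f p hne he hf := by
    refine proper (sg_ne ua_pos _) (sg_ne (va_pos m) _) (sg_ne ua_pos _) (sg_ne (va_pos m) _)
      ?_ he hf
    intro h
    have h1 := sg_inj ua_pos ua_mono h
    exact hne (Prod.ext (Fin.ext h1) (Fin.ext ((eq_of he hf).1 h1)))

end Upper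

theorem exists_drawing (m n : ℕ) : ∃ D : Drawing m n, D.crossings ≤ d m * d n :=
  ⟨Upper.drawing m n, (Upper.count m n).2⟩

end Vale.Agent.P040
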